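import Vale.Agent.P322.Check.Concave
import Vale.Agent.P322.Scalar.Children

/-!
# Courtade–Kumar: corner tests for the saturation step with the children's information term

A band consists of slices `m1 ≤ m ≤ m2`, each cut by affine lines in `d`; on every piece the
entropy lies between two planes, so eight corners decide. The last slice may be a cone with apex
`(1, 0, 0)`, decided by four corners.
-/

namespace Vale.Agent.P322.Check

open Real Set

/-- An affine function of `(m, d)`. -/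
structure Plane where
  /-- value at `0` -/
  a : ℚ
  /-- coefficient of `m` -/
  bm : ℚ
  /-- coefficient of `d` -/
  cd : ℚ

/-- Evaluation. -/
def Plane.ev (p : Plane) (m d : ℚ) : ℚ := p.a + p.bm * m + p.cd * d

/-- Real evaluation. -/
noncomputable def Plane.evR (p : Plane) (m d : ℝ) : ℝ :=
  (p.a : ℝ) + (p.bm : ℝ) * m + (p.cd : ℝ) * d

lemma Plane.cast_ev (p : Plane) (m d : ℚ) :
    ((p.ev m d : ℚ) : ℝ) = p.evR (m : ℝ) (d : ℝ) := by simp [ev, evR]

lemma Plane.evR_combine (p : Plane) {a b : ℝ} (h : a + b = 1) (m0 d0 m1 d1 : ℝ) :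
    p.evR (a * m0 + b * m1) (a * d0 + b * d1) = a * p.evR m0 d0 + b * p.evR m1 d1 := by
  obtain rfl : b = 1 - a := by linarith
  unfold evR; ring

/-- A line over a slice, given by its values at the two ends. -/
structure Line where
  /-- value at the left end -/
  l : ℚ
  /-- value at the right end -/
  r : ℚ

/-- A piece: certificate, children's bound, the two planes, the hints. -/
structure Leaf where
  /-- `exp (2 a)` -/
  A : ℚ
  /-- `exp (2 b)` -/
  B : ℚ
  /-- children's slope -/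
  c : ℚ
  /-- children's constant -/
  c0 : ℚ
  /-- kind of the lower plane -/
  lo : ℕ
  /-- kind of the upper plane -/
  hi : ℕ
  /-- hints for the corners -/
  E : List ℚ

/-- A segment: its upper line and the piece below it. -/
structure Seg where
  /-- upper line -/
  top : Line
  /-- piece -/
  leaf : Leaf

/-- A slice: right end and segments. -/
structure Slice where
  /-- right end -/
  m2 : ℚ
  /-- segments from below -/
  segs : List Seg

/-- The parameters of a band. -/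
structure TBand where
  /-- lower slope of the entropy -/
  rlo : ℚ
  /-- lower entropy in units of the weight -/
  kap : ℚ
  /-- upper slope of the entropy -/
  rhi : Option ℚ
  /-- a cut `H ≤ a + cd * d` -/
  cut : Option (ℚ × ℚ)
  /-- `H ≤ xs * satWeight m` -/
  xs : ℚ
  /-- lower end of `d` in units of the weight -/
  dP : ℚ
  /-- upper end of `d` -/
  dT : ℚ

/-- States of a band. -/
structure TBand.Mem (b : TBand) (m d H : ℝ) : Prop where
  /-- `H` above the ray -/
  rlo : (b.rlo : ℝ) * d ≤ H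
  /-- `H` above the weight -/
  kap : (b.kap : ℝ) * satWeight m ≤ H
  /-- `H` below the ray -/
  rhi : ∀ r ∈ b.rhi, H ≤ (r : ℝ) * d
  /-- `H` below the cut -/
  cut : ∀ q ∈ b.cut, H ≤ ((q.1 : ℚ) : ℝ) + ((q.2 : ℚ) : ℝ) * d
  /-- `H` below the saturation limit -/
  xs : H ≤ (b.xs : ℝ) * satWeight m
  /-- `d` above -/
  dP : (b.dP : ℝ) * satWeight m ≤ d
  /-- `d` below -/
  dT : d ≤ (b.dT : ℝ)

/-- The tangent point of a slice. -/
def tanPoint (m1 m2 : ℚ) : ℚ := if m2 = 1 then 1 else (m1 + m2) / 2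

/-- The lower plane of the given kind. -/
def loPlane (b : TBand) (k : ℕ) (m1 m2 : ℚ) : Option Plane :=
  if k = 0 then some ⟨0, 0, b.rlo⟩ else
    if 0 ≤ b.kap ∧ 0 ≤ m1 ∧ m1 < m2 then
      let s := (wQ m2 - wQ m1) / (m2 - m1)
      some ⟨b.kap * (wQ m1 - s * m1), b.kap * s, 0⟩
    else none

/-- The upper plane of the given kind. -/
def hiPlane (b : TBand) (k : ℕ) (m1 m2 : ℚ) : Option Plane :=
  if k = 0 then b.rhi.map fun r => ⟨0, 0, r⟩ else
    if k = 1 then
      let mc := tanPoint m1 m2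
      let s := -(7 / 4 * mc + mc ^ 3 / 2)
      if 0 ≤ b.xs then some ⟨b.xs * (wQ mc - s * mc), b.xs * s, 0⟩ else none
    else b.cut.map fun q => ⟨q.1, 0, q.2⟩

/-- The children's bound is admissible. -/
def childOK (c c0 : ℚ) : Bool := decide (0 ≤ c) && decide (c0 ≤ -3 / 8 * (c - 2) ^ 2)

/-- Test of a piece between the lines `lo` and `hi`. -/
def leafOK (b : TBand) (m1 m2 : ℚ) (lo hi : Line) (f : Leaf) : Bool :=
  match mkCert f.A f.B, loPlane b f.lo m1 m2, hiPlane b f.hi m1 m2 with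
  | some k, some P, some Q =>
      let p : Par := ⟨k, f.c, f.c0, tanPoint m1 m2⟩
      let E := fun i => f.E.getD i 1
      childOK f.c f.c0 && decide (m1 < m2) &&
      cornerOK p m1 lo.l (P.ev m1 lo.l) (E 0) && cornerOK p m1 lo.l (Q.ev m1 lo.l) (E 1) &&
      cornerOK p m1 hi.l (P.ev m1 hi.l) (E 2) && cornerOK p m1 hi.l (Q.ev m1 hi.l) (E 3) &&
      (if m2 = 1 then
        decide (f.c0 = 0) && decide (lo.r = 0) && decide (hi.r = 0) &&
        decide (P.ev 1 0 = 0) && decide (Q.ev 1 0 = 0)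
      else
        cornerOK p m2 lo.r (P.ev m2 lo.r) (E 4) && cornerOK p m2 lo.r (Q.ev m2 lo.r) (E 5) &&
        cornerOK p m2 hi.r (P.ev m2 hi.r) (E 6) && cornerOK p m2 hi.r (Q.ev m2 hi.r) (E 7))
  | _, _, _ => false

/-- Test of the segments above `lo`; the last line must dominate `min (1 - m) dT`. -/
def segsOK (b : TBand) (m1 m2 : ℚ) : Line → List Seg → Bool
  | lo, [] => (decide (1 - m1 ≤ lo.l) && decide (1 - m2 ≤ lo.r)) ||
      (decide (b.dT < lo.l) && decide (b.dT < lo.r))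
  | lo, s :: rest => leafOK b m1 m2 lo s.top s.leaf && segsOK b m1 m2 s.top rest

/-- Test of the slices to the right of `m1`; they must reach `1`. -/
def slicesOK (b : TBand) : ℚ → List Slice → Bool
  | m1, [] => decide (1 ≤ m1)
  | m1, s :: rest =>
      decide (0 ≤ m1) && decide (m1 < s.m2) && decide (0 ≤ b.dP) &&
      segsOK b m1 s.m2 ⟨min (b.dP * wQ m1) (1 - m1), min (b.dP * wQ s.m2) (1 - s.m2)⟩ s.segs &&
        slicesOK b s.m2 rest

/-! ### Soundness -/

/-- Value of a line at `m`. -/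
noncomputable def Line.at (L : Line) (m1 m2 : ℚ) (m : ℝ) : ℝ :=
  ((m2 : ℝ) - m) / ((m2 : ℝ) - m1) * (L.l : ℝ) + (m - m1) / ((m2 : ℝ) - m1) * (L.r : ℝ)

lemma exists_weights {x y z : ℝ} (h1 : x ≤ z) (h2 : z ≤ y) :
    ∃ a b : ℝ, 0 ≤ a ∧ 0 ≤ b ∧ a + b = 1 ∧ a * x + b * y = z := by
  have h : z ∈ segment ℝ x y := by rw [segment_eq_Icc (h1.trans h2)]; exact ⟨h1, h2⟩
  obtain ⟨a, b, ha, hb, hab, he⟩ := h
  exact ⟨a, b, ha, hb, hab, by simpa [smul_eq_mul] using he⟩

lemma good_between {p : Par} (hc : 0 ≤ p.c) {m d0 d1 d H : ℝ} {P Q : Plane}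
    (hd0 : d0 ≤ d) (hd1 : d ≤ d1) (hP : P.evR m d ≤ H) (hQ : H ≤ Q.evR m d)
    (g00 : Good p m d0 (P.evR m d0)) (g01 : Good p m d0 (Q.evR m d0))
    (g10 : Good p m d1 (P.evR m d1)) (g11 : Good p m d1 (Q.evR m d1)) : Good p m d H := by
  obtain ⟨a, b, ha, hb, hab, he⟩ := exists_weights hd0 hd1
  have em : a * m + b * m = m := by rw [← add_mul, hab, one_mul]
  have gP := g00.combine hc g10 ha hb hab
  have gQ := g01.combine hc g11 ha hb hab
  rw [← Plane.evR_combine P hab] at gP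
  rw [← Plane.evR_combine Q hab] at gQ
  rw [em, he] at gP gQ
  obtain ⟨a', b', ha', hb', hab', he'⟩ := exists_weights hP hQ
  have g := gP.combine hc gQ ha' hb' hab'
  rw [he', ← add_mul, ← add_mul, hab', one_mul, one_mul] at g
  exact g

theorem leafOK_good {b : TBand} {m1 m2 : ℚ} {lo hi : Line} {f : Leaf}
    (h : leafOK b m1 m2 lo hi f = true) {m d H : ℝ} (hm1 : (m1 : ℝ) ≤ m) (hm2 : m ≤ (m2 : ℝ))
    (hlt : m < 1) (hlo : lo.at m1 m2 m ≤ d) (hhi : d ≤ hi.at m1 m2 m) (hb : b.Mem m d H) :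
    ∃ k : Cert, mkCert f.A f.B = some k ∧ childOK f.c f.c0 = true ∧
      0 ≤ margin ⟨k, f.c, f.c0, tanPoint m1 m2⟩ m d H := by
  unfold leafOK at h
  split at h
  case h_2 => exact absurd h (by simp)
  rename_i k P Q hk hP hQ
  simp only [Bool.and_eq_true, decide_eq_true_eq] at h
  obtain ⟨⟨⟨⟨⟨⟨hch, h12⟩, c1⟩, c2⟩, c3⟩, c4⟩, hrest⟩ := h
  refine ⟨k, hk, hch, ?_⟩
  set p : Par := ⟨k, f.c, f.c0, tanPoint m1 m2⟩ with hp
  have hc : 0 ≤ p.c := by
    simp only [childOK, Bool.and_eq_true, decide_eq_true_eq] at hch; exact hch.1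
  have h12R : (m1 : ℝ) < (m2 : ℝ) := by exact_mod_cast h12
  have hden : (0 : ℝ) < (m2 : ℝ) - m1 := by linarith
  -- the planes bound the state
  have hPle : P.evR m d ≤ H := by
    unfold loPlane at hP
    split_ifs at hP with h0 hcond
    · obtain rfl := Option.some.inj hP
      simpa [Plane.evR] using hb.rlo
    · obtain rfl := Option.some.inj hP
      refine le_trans ?_ hb.kap
      have hk0 : (0 : ℝ) ≤ (b.kap : ℝ) := by exact_mod_cast hcond.1
      have := chord_le_satWeight (show (0 : ℝ) ≤ (m1 : ℝ) by exact_mod_cast hcond.2.1) hm1 hm2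
      simp only [Plane.evR]
      push_cast [cast_wQ]
      calc (b.kap : ℝ) * (satWeight (m1 : ℝ)
            - (satWeight (m2 : ℝ) - satWeight (m1 : ℝ)) / ((m2 : ℝ) - m1) * m1)
            + (b.kap : ℝ) * ((satWeight (m2 : ℝ) - satWeight (m1 : ℝ)) / ((m2 : ℝ) - m1)) * m
            + 0 * d
          = (b.kap : ℝ) * ((satWeight (m1 : ℝ) * ((m2 : ℝ) - m)
              + satWeight (m2 : ℝ) * (m - m1)) / ((m2 : ℝ) - m1)) := by field_simp; ring
        _ ≤ (b.kap : ℝ) * satWeight m :=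
            mul_le_mul_of_nonneg_left ((div_le_iff₀ hden).2 this) hk0
  have hQge : H ≤ Q.evR m d := by
    unfold hiPlane at hQ
    split_ifs at hQ with h0 h1 hx
    · obtain ⟨r, hr, rfl⟩ := Option.map_eq_some_iff.1 hQ
      simpa [Plane.evR] using hb.rhi r hr
    · obtain rfl := Option.some.inj hQ
      refine hb.xs.trans ?_
      have hx0 : (0 : ℝ) ≤ (b.xs : ℝ) := by exact_mod_cast hx
      refine le_trans (mul_le_mul_of_nonneg_left (satWeight_le_wTan (tanPoint m1 m2 : ℝ) m) hx0)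
        (le_of_eq ?_)
      simp only [Plane.evR, wTan]
      push_cast [cast_wQ]
      ring
    · obtain ⟨q, hq, rfl⟩ := Option.map_eq_some_iff.1 hQ
      simpa [Plane.evR] using hb.cut q hq
  have g1 := cornerOK_good c1
  have g2 := cornerOK_good c2
  have g3 := cornerOK_good c3
  have g4 := cornerOK_good c4
  simp only [Plane.cast_ev] at g1 g2 g3 g4
  by_cases hcone : m2 = 1
  · rw [if_pos hcone] at hrest
    simp only [Bool.and_eq_true, decide_eq_true_eq] at hrest
    obtain ⟨⟨⟨⟨hc0, hlr⟩, hhr⟩, hP0⟩, hQ0⟩ := hrest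
    have hmc : p.mc = 1 := by simp [hp, tanPoint, hcone]
    have hP0' : P.evR 1 0 = 0 := by
      have := congrArg (Rat.cast : ℚ → ℝ) hP0; simpa [Plane.cast_ev] using this
    have hQ0' : Q.evR 1 0 = 0 := by
      have := congrArg (Rat.cast : ℚ → ℝ) hQ0; simpa [Plane.cast_ev] using this
    set θ := (1 - m) / (1 - (m1 : ℝ)) with hθ
    have h11 : (m1 : ℝ) < 1 := by linarith
    have hθ0 : 0 < θ := div_pos (by linarith) (by linarith)
    have hθ1 : θ ≤ 1 := by rw [hθ, div_le_one (by linarith)]; linarith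
    have hθm : θ * (1 - (m1 : ℝ)) = 1 - m := div_mul_cancel₀ _ (by linarith)
    have hL : ∀ L : Line, L.r = 0 → L.at m1 m2 m = θ * (L.l : ℝ) := fun L hL => by
      simp [Line.at, hL, hcone, hθ]
    rw [hL lo hlr] at hlo
    rw [hL hi hhr] at hhi
    have hev : ∀ R : Plane, R.evR 1 0 = 0 → R.evR (m1 : ℝ) (d / θ) * θ = R.evR m d := by
      intro R hR
      simp only [Plane.evR, mul_zero, add_zero, mul_one] at hR ⊢
      have : d / θ * θ = d := div_mul_cancel₀ _ hθ0.ne'
      linear_combination (θ - 1) * hR + (R.cd : ℝ) * this - (R.bm : ℝ) * hθm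
    have g := good_between (d := d / θ) (H := H / θ) (P := P) (Q := Q) hc
      (by rw [le_div_iff₀ hθ0]; linarith) (by rw [div_le_iff₀ hθ0]; linarith)
      (by rw [le_div_iff₀ hθ0, hev P hP0']; exact hPle)
      (by rw [div_le_iff₀ hθ0, hev Q hQ0']; exact hQge) g1 g2 g3 g4
    have g' := g.cone hc hc0 hmc hθ0 hθ1
    rw [hθm, sub_sub_cancel, mul_div_cancel₀ _ hθ0.ne', mul_div_cancel₀ _ hθ0.ne'] at g'
    exact g'.hF
  · rw [if_neg hcone] at hrest
    simp only [Bool.and_eq_true] at hrest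
    obtain ⟨⟨⟨c5, c6⟩, c7⟩, c8⟩ := hrest
    have g5 := cornerOK_good c5
    have g6 := cornerOK_good c6
    have g7 := cornerOK_good c7
    have g8 := cornerOK_good c8
    simp only [Plane.cast_ev] at g5 g6 g7 g8
    set α := ((m2 : ℝ) - m) / ((m2 : ℝ) - m1) with hα
    set β := (m - m1) / ((m2 : ℝ) - m1) with hβ
    have hαβ : α + β = 1 := by rw [hα, hβ, ← add_div, div_eq_one_iff_eq hden.ne']; ring
    have hem : α * (m1 : ℝ) + β * (m2 : ℝ) = m := by rw [hα, hβ]; field_simp; ring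
    have ha0 : 0 ≤ α := div_nonneg (by linarith) hden.le
    have hb0 : 0 ≤ β := div_nonneg (by linarith) hden.le
    have e1 := g1.combine hc g5 ha0 hb0 hαβ
    have e2 := g2.combine hc g6 ha0 hb0 hαβ
    have e3 := g3.combine hc g7 ha0 hb0 hαβ
    have e4 := g4.combine hc g8 ha0 hb0 hαβ
    rw [← Plane.evR_combine P hαβ] at e1 e3
    rw [← Plane.evR_combine Q hαβ] at e2 e4
    rw [hem] at e1 e2 e3 e4
    exact (good_between hc hlo hhi hPle hQge e1 e2 e3 e4).hF

/-- What the tests give for a state of the band. -/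
theorem leafOK_step {b : TBand} {m1 m2 : ℚ} {lo hi : Line} {f : Leaf}
    (h : leafOK b m1 m2 lo hi f = true) {m d H K : ℝ} (hm1 : (m1 : ℝ) ≤ m) (hm2 : m ≤ (m2 : ℝ))
    (hm0 : 0 ≤ m) (hlt : m < 1) (hlo : lo.at m1 m2 m ≤ d) (hhi : d ≤ hi.at m1 m2 m)
    (hb : b.Mem m d H) (hd : 0 ≤ d) (hH : 0 < H) (hE : H ≤ (ent (m + d) + ent (m - d)) / 2)
    (hK : Edge m d H K) :
    persp2 (satWeight m) H ≤ K + F0 ((ent (m + d) + ent (m - d)) / 2 - H) := by
  obtain ⟨k, hk, hch, hF⟩ := leafOK_good h hm1 hm2 hlt hlo hhi hb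
  simp only [childOK, Bool.and_eq_true, decide_eq_true_eq] at hch
  have hc0 : ((f.c0 : ℚ) : ℝ) ≤ -3 / 8 * (((f.c : ℚ) : ℝ) - 2) ^ 2 := by
    have := (Rat.cast_le (K := ℝ)).2 hch.2; push_cast at this; exact this
  have h1 := mkCert_sound hk hK hd hH.le hlt.le
  have h2 := affine_le_F0 hc0 (show 0 ≤ (ent (m + d) + ent (m - d)) / 2 - H by linarith)
    (by linarith [ent_le_log_two (m + d), ent_le_log_two (m - d)])
  have h3 := persp2_mono (satWeight_pos ⟨by linarith, hlt⟩) (satWeight_le_wTan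
    ((tanPoint m1 m2 : ℚ) : ℝ) m) hH
  simp only [margin] at hF
  linarith

theorem segsOK_step {b : TBand} {m1 m2 : ℚ} :
    ∀ (L : List Seg) (lo : Line), segsOK b m1 m2 lo L = true → ∀ {m d H K : ℝ}, (m1 : ℝ) ≤ m →
      m ≤ (m2 : ℝ) → (m1 : ℝ) < (m2 : ℝ) → 0 ≤ m → m < 1 → lo.at m1 m2 m ≤ d → b.Mem m d H →
      0 ≤ d → m + d < 1 → 0 < H → H ≤ (ent (m + d) + ent (m - d)) / 2 → Edge m d H K →
      persp2 (satWeight m) H ≤ K + F0 ((ent (m + d) + ent (m - d)) / 2 - H) := by
  intro L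
  induction L with
  | nil =>
    intro lo h m d H K hm1 hm2 h12 hm0 hlt hlo hb hd hmd hH hE hK
    simp only [segsOK, Bool.or_eq_true, Bool.and_eq_true, decide_eq_true_eq] at h
    have hden : (0 : ℝ) < (m2 : ℝ) - m1 := by linarith
    have ha : 0 ≤ ((m2 : ℝ) - m) / ((m2 : ℝ) - m1) := div_nonneg (by linarith) hden.le
    have hb' : 0 ≤ (m - (m1 : ℝ)) / ((m2 : ℝ) - m1) := div_nonneg (by linarith) hden.le
    have hs : ((m2 : ℝ) - m) / ((m2 : ℝ) - m1) + (m - (m1 : ℝ)) / ((m2 : ℝ) - m1) = 1 := by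
      rw [← add_div, div_eq_one_iff_eq hden.ne']; ring
    rcases h with ⟨u, v⟩ | ⟨u, v⟩
    · have u' := (Rat.cast_le (K := ℝ)).2 u
      have v' := (Rat.cast_le (K := ℝ)).2 v
      push_cast at u' v'
      have key : 1 - m ≤ lo.at m1 m2 m := by
        refine le_trans (le_of_eq ?_)
          (add_le_add (mul_le_mul_of_nonneg_left u' ha) (mul_le_mul_of_nonneg_left v' hb'))
        field_simp
        ring
      linarith
    · have u' := (Rat.cast_lt (K := ℝ)).2 u
      have v' := (Rat.cast_lt (K := ℝ)).2 v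
      have key : (b.dT : ℝ) < lo.at m1 m2 m := by
        refine lt_of_lt_of_le (lt_min u' v') ?_
        calc min (lo.l : ℝ) (lo.r : ℝ)
            = ((m2 : ℝ) - m) / ((m2 : ℝ) - m1) * min (lo.l : ℝ) (lo.r : ℝ)
              + (m - (m1 : ℝ)) / ((m2 : ℝ) - m1) * min (lo.l : ℝ) (lo.r : ℝ) := by
              rw [← add_mul, hs, one_mul]
          _ ≤ lo.at m1 m2 m := add_le_add
              (mul_le_mul_of_nonneg_left (min_le_left _ _) ha)
              (mul_le_mul_of_nonneg_left (min_le_right _ _) hb')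
      exfalso; linarith [hb.dT]
  | cons s rest ih =>
    intro lo h m d H K hm1 hm2 h12 hm0 hlt hlo hb hd hmd hH hE hK
    simp only [segsOK, Bool.and_eq_true] at h
    rcases le_total d (s.top.at m1 m2 m) with hle | hge
    · exact leafOK_step h.1 hm1 hm2 hm0 hlt hlo hle hb hd hH hE hK
    · exact ih s.top h.2 hm1 hm2 h12 hm0 hlt hge hb hd hmd hH hE hK

theorem slicesOK_step {b : TBand} :
    ∀ (L : List Slice) (m1 : ℚ), slicesOK b m1 L = true → ∀ {m d H K : ℝ}, (m1 : ℝ) ≤ m →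
      0 ≤ m → m < 1 → b.Mem m d H → 0 ≤ d → m + d < 1 → 0 < H →
      H ≤ (ent (m + d) + ent (m - d)) / 2 → Edge m d H K →
      persp2 (satWeight m) H ≤ K + F0 ((ent (m + d) + ent (m - d)) / 2 - H) := by
  intro L
  induction L with
  | nil =>
    intro m1 h m d H K hm1 _ hlt _ _ _ _ _ _
    simp only [slicesOK, decide_eq_true_eq] at h
    have : (1 : ℝ) ≤ (m1 : ℝ) := by exact_mod_cast h
    linarith
  | cons s rest ih =>
    intro m1 h m d H K hm1 hm0 hlt hb hd hmd hH hE hK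
    simp only [slicesOK, Bool.and_eq_true, decide_eq_true_eq] at h
    obtain ⟨⟨⟨⟨h0, h12⟩, hdP⟩, hsegs⟩, hrest⟩ := h
    have h12R : (m1 : ℝ) < (s.m2 : ℝ) := by exact_mod_cast h12
    rcases le_total m (s.m2 : ℝ) with hle | hge
    · refine segsOK_step s.segs _ hsegs hm1 hle h12R hm0 hlt ?_ hb hd hmd hH hE hK
      refine le_trans ?_ hb.dP
      have hdP' : (0 : ℝ) ≤ (b.dP : ℝ) := by exact_mod_cast hdP
      have := chord_le_satWeight (show (0 : ℝ) ≤ (m1 : ℝ) by exact_mod_cast h0) hm1 hle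
      have hden : (0 : ℝ) < (s.m2 : ℝ) - m1 := by linarith
      unfold Line.at
      push_cast [cast_wQ]
      calc _ ≤ ((s.m2 : ℝ) - m) / ((s.m2 : ℝ) - m1) * ((b.dP : ℝ) * satWeight (m1 : ℝ))
              + (m - (m1 : ℝ)) / ((s.m2 : ℝ) - m1) * ((b.dP : ℝ) * satWeight (s.m2 : ℝ)) :=
            add_le_add (mul_le_mul_of_nonneg_left (min_le_left _ _) (div_nonneg (by linarith) hden.le))
              (mul_le_mul_of_nonneg_left (min_le_left _ _) (div_nonneg (by linarith) hden.le))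
        _ = (b.dP : ℝ) * ((satWeight (m1 : ℝ) * ((s.m2 : ℝ) - m)
              + satWeight (s.m2 : ℝ) * (m - m1)) / ((s.m2 : ℝ) - m1)) := by field_simp
        _ ≤ (b.dP : ℝ) * satWeight m :=
            mul_le_mul_of_nonneg_left ((div_le_iff₀ hden).2 this) hdP'
    · exact ih s.m2 hrest hge hm0 hlt hb hd hmd hH hE hK

end Vale.Agent.P322.Check
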