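import Vale.Agent.P322.Check.Log
import Vale.Agent.P322.Scalar.Phi2
import Vale.Agent.P322.Scalar.CertDefs
import Vale.Agent.P322.Scalar.Cert

/-!
# Courtade–Kumar: certified bounds for entropy, tangents of `Phi` and certificates

A point `z ≥ 0` is given by the rational `E = exp (2 z)`.
-/

namespace Vale.Agent.P322.Check

open Real Set

/-- An upper bound of `ent x`. -/
def entUB (x : ℚ) : ℚ :=
  -((1 + x) / 2 * logLB ((1 + x) / 2)) - (1 - x) / 2 * logLB ((1 - x) / 2)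

/-- A lower bound of `ent x`. -/
def entLB (x : ℚ) : ℚ :=
  -((1 + x) / 2 * logUB ((1 + x) / 2)) - (1 - x) / 2 * logUB ((1 - x) / 2)

/-- An upper bound of `ent (tanh z)`. -/
def eUB (E : ℚ) : ℚ := logUB (1 + 1 / E) + logUB E / (E + 1)

/-- A lower bound of `ent (tanh z)`. -/
def eLB (E : ℚ) : ℚ := logLB (1 + 1 / E) + logLB E / (E + 1)

/-- An upper bound of `Phi` at `ent (tanh z)`. -/
def phiUB (E : ℚ) : ℚ := logUB E / 2 * ((E - 1) / (E + 1))

/-- A lower bound of `Phi` at `ent (tanh z)`. -/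
def phiLB (E : ℚ) : ℚ := logLB E / 2 * ((E - 1) / (E + 1))

/-- An upper bound of `rate` at `ent (tanh z)`. -/
def rateUB (E : ℚ) : ℚ := 1 + (E - 1 / E) / (2 * logLB E)

/-- A lower bound of `rate` at `ent (tanh z)`. -/
def rateLB (E : ℚ) : ℚ := 1 + (E - 1 / E) / (2 * logUB E)

/-- An upper bound of `alphaT` at `ent (tanh z)`. -/
def alphaUB (E : ℚ) : ℚ := phiUB E + rateUB E * eUB E

/-- A lower bound of `alphaT` at `ent (tanh z)`. -/
def alphaLB (E : ℚ) : ℚ := phiLB E + rateLB E * eLB E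

/-- A point below `zOf (1/4)`. -/
def quarterLo : ℚ := 135774 / 10000

/-- A point above `zOf (1/4)`. -/
def quarterHi : ℚ := 135775 / 10000

/-- The validity test of the hint `E` for `phi2UB x E`. -/
def phi2OK (x E : ℚ) : Bool := decide (0 < x) && (decide (1/4 < x) || (decide (1 ≤ E) && decide (eUB E ≤ x)))

/-- An upper bound of `Phi2 x`, given a hint. -/
def phi2UB (x E : ℚ) : ℚ :=
  if 1 / 4 < x then phiUB quarterHi - rateLB quarterLo * (x - 1 / 4) else phiUB E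

/-- Certificate data: bounds of `(lam, mu, nu)`. -/
structure Cert where
  /-- lower bound of the slope -/
  lam : ℚ
  /-- upper bound of the entropy price -/
  mu : ℚ
  /-- upper bound of the tilt -/
  nu : ℚ

/-- Certificate of the atom with `exp (2 a) = A`, `exp (2 b) = B`; `(0, 0, 0)` for `B = 1`. -/
def mkCert (A B : ℚ) : Option Cert :=
  if B = 1 then some ⟨0, 0, 0⟩ else
    let C := (A + 1 / A) / 2
    let c := (B + 1 / B) / 2
    let S := (A - 1 / A) / 2
    let s := (B - 1 / B) / 2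
    let u := C + c
    let lL := logLB (2 * u)
    let lU := logUB (2 * u)
    let aL := logLB A / 2
    let aU := logUB A / 2
    let bL := logLB B / 2
    let bU := logUB B / 2
    let nuU := A * (S * lU - 2 * aL * C) / 2
    let nuL := max 0 (A * (S * lL - 2 * aU * C) / 2)
    let e2L := max 0 (u * lL / 2 - aU * S - bU * s)
    let muL := max 0 (s ^ 2 / (A * u * (lU - 2 * aL)))
    if 1 ≤ A ∧ 1 < B ∧ 0 < lL - 2 * aU then
      some ⟨bL + muL * (e2L + nuL * (1 / A + c)) / s, s ^ 2 / (A * u * (lL - 2 * aU)), nuU⟩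
    else none

/-! ### Soundness -/

lemma ent_eq_log (x : ℝ) :
    ent x = -((1 + x) / 2 * log ((1 + x) / 2)) - (1 - x) / 2 * log ((1 - x) / 2) := by
  rw [ent, binEntropy_eq_negMulLog_add_negMulLog_one_sub, negMulLog, negMulLog,
    show 1 - (1 + x) / 2 = (1 - x) / 2 by ring]
  ring

lemma mul_log_le {q : ℚ} (hq : 0 ≤ q) : (q : ℝ) * log (q : ℝ) ≤ (q : ℝ) * (logUB q : ℝ) := by
  rcases hq.eq_or_lt with rfl | h
  · simp
  · exact mul_le_mul_of_nonneg_left (log_le_logUB h) (by exact_mod_cast hq)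

lemma le_mul_log {q : ℚ} (hq : 0 ≤ q) : (q : ℝ) * (logLB q : ℝ) ≤ (q : ℝ) * log (q : ℝ) := by
  rcases hq.eq_or_lt with rfl | h
  · simp
  · exact mul_le_mul_of_nonneg_left (logLB_le_log h) (by exact_mod_cast hq)

theorem ent_le_entUB {x : ℚ} (h1 : -1 ≤ x) (h2 : x ≤ 1) : ent (x : ℝ) ≤ (entUB x : ℝ) := by
  have a := le_mul_log (q := (1 + x) / 2) (by linarith)
  have b := le_mul_log (q := (1 - x) / 2) (by linarith)
  push_cast at a b
  rw [ent_eq_log, entUB]
  push_cast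
  linarith

theorem entLB_le_ent {x : ℚ} (h1 : -1 ≤ x) (h2 : x ≤ 1) : (entLB x : ℝ) ≤ ent (x : ℝ) := by
  have a := mul_log_le (q := (1 + x) / 2) (by linarith)
  have b := mul_log_le (q := (1 - x) / 2) (by linarith)
  push_cast at a b
  rw [ent_eq_log, entLB]
  push_cast
  linarith

/-- The point of the hint `E`. -/
noncomputable def pt (E : ℚ) : ℝ := log (E : ℝ) / 2

lemma pt_nonneg {E : ℚ} (h : 1 ≤ E) : 0 ≤ pt E :=
  div_nonneg (log_nonneg (by exact_mod_cast h)) (by norm_num)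

lemma exp_two_pt {E : ℚ} (h : 0 < E) : exp (2 * pt E) = (E : ℝ) := by
  rw [pt, mul_div_cancel₀ _ (two_ne_zero' ℝ), exp_log (by exact_mod_cast h)]

lemma ent_pt {E : ℚ} (h : 0 < E) :
    ent (tanh (pt E)) = log (1 + 1 / (E : ℝ)) + log (E : ℝ) / ((E : ℝ) + 1) := by
  rw [ent_tanh_eq_exp, exp_two_pt h, pt, mul_div_cancel₀ _ (two_ne_zero' ℝ)]

lemma tanh_pt {E : ℚ} (h : 0 < E) : tanh (pt E) = ((E : ℝ) - 1) / ((E : ℝ) + 1) := by
  rw [tanh_eq_exp, exp_two_pt h]

theorem eLB_le {E : ℚ} (h : 1 ≤ E) :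
    (eLB E : ℝ) ≤ ent (tanh (pt E)) ∧ ent (tanh (pt E)) ≤ (eUB E : ℝ) := by
  have h0 : 0 < E := lt_of_lt_of_le one_pos h
  have hR : (0 : ℝ) < E := by exact_mod_cast h0
  have a := logLB_le_log (q := 1 + 1 / E) (by positivity)
  have b := log_le_logUB (q := 1 + 1 / E) (by positivity)
  have c := logLB_le_log h0
  have d := log_le_logUB h0
  push_cast at a b
  rw [ent_pt h0, eLB, eUB]
  push_cast
  constructor <;> gcongr

theorem phi_bounds {E : ℚ} (h : 1 ≤ E) :
    (phiLB E : ℝ) ≤ Phi (ent (tanh (pt E))) ∧ Phi (ent (tanh (pt E))) ≤ (phiUB E : ℝ) := by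
  have h0 : 0 < E := lt_of_lt_of_le one_pos h
  have hR : (1 : ℝ) ≤ E := by exact_mod_cast h
  have c := logLB_le_log h0
  have d := log_le_logUB h0
  have hq : (0 : ℝ) ≤ ((E : ℝ) - 1) / ((E : ℝ) + 1) := div_nonneg (by linarith) (by linarith)
  rw [Phi_ent_tanh (pt_nonneg h), tanh_pt h0, phiLB, phiUB, pt]
  push_cast
  constructor <;> gcongr

lemma rate_pt {E : ℚ} (h : 1 < E) :
    rate (ent (tanh (pt E))) = 1 + ((E : ℝ) - 1 / (E : ℝ)) / (2 * log (E : ℝ)) := by
  have h0 : 0 < E := lt_trans one_pos h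
  have hl : 0 < log (E : ℝ) := log_pos (by exact_mod_cast h)
  have hz := zOf_ent_tanh (pt_nonneg h.le)
  rw [rate, hz, if_neg (by rw [pt]; positivity), sinh_eq, exp_neg, exp_two_pt h0, pt]
  field_simp

theorem rateLB_le {E : ℚ} (h : 1 < E) (hU : 0 < logUB E) :
    (rateLB E : ℝ) ≤ rate (ent (tanh (pt E))) := by
  have h0 : 0 < E := lt_trans one_pos h
  have hl : 0 < log (E : ℝ) := log_pos (by exact_mod_cast h)
  have hR : (1 : ℝ) < E := by exact_mod_cast h
  have : (0 : ℝ) ≤ (E : ℝ) - 1 / (E : ℝ) := by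
    have : 1 / (E : ℝ) ≤ 1 := by rw [div_le_one (by linarith)]; linarith
    linarith
  rw [rate_pt h, rateLB]
  push_cast
  gcongr
  exact log_le_logUB h0

theorem le_rateUB {E : ℚ} (h : 1 < E) (hL : 0 < logLB E) :
    rate (ent (tanh (pt E))) ≤ (rateUB E : ℝ) := by
  have h0 : 0 < E := lt_trans one_pos h
  have hR : (1 : ℝ) < E := by exact_mod_cast h
  have hL' : (0 : ℝ) < (logLB E : ℝ) := by exact_mod_cast hL
  have : (0 : ℝ) ≤ (E : ℝ) - 1 / (E : ℝ) := by
    have : 1 / (E : ℝ) ≤ 1 := by rw [div_le_one (by linarith)]; linarith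
    linarith
  rw [rate_pt h, rateUB]
  push_cast
  gcongr
  exact logLB_le_log h0

lemma ent_pt_pos (E : ℚ) : 0 < ent (tanh (pt E)) := ent_tanh_pos _

/-- The tests needed for bounds of `alphaT` at the hint. -/
def alphaOK (E : ℚ) : Bool := decide (1 < E) && decide (0 < logLB E) && decide (0 ≤ eLB E)

theorem alpha_bounds {E : ℚ} (h : alphaOK E = true) :
    (alphaLB E : ℝ) ≤ alphaT (ent (tanh (pt E))) ∧ alphaT (ent (tanh (pt E))) ≤ (alphaUB E : ℝ) := by
  simp only [alphaOK, Bool.and_eq_true, decide_eq_true_eq] at h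
  obtain ⟨⟨h1, hL⟩, he⟩ := h
  have hU : 0 < logUB E := by
    have h0 : 0 < E := lt_trans one_pos h1
    have := (logLB_le_log h0).trans (log_le_logUB h0)
    have : logLB E ≤ logUB E := by exact_mod_cast this
    linarith
  have hr := rateLB_le h1 hU
  have hr' := le_rateUB h1 hL
  obtain ⟨p1, p2⟩ := phi_bounds h1.le
  obtain ⟨e1, e2⟩ := eLB_le h1.le
  have he' : (0 : ℝ) ≤ (eLB E : ℝ) := by exact_mod_cast he
  have hR := two_le_rate (ent (tanh (pt E)))
  rw [alphaT, alphaLB, alphaUB]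
  push_cast
  constructor
  · exact add_le_add p1 ((mul_le_mul_of_nonneg_right hr he').trans
      (mul_le_mul_of_nonneg_left e1 (by linarith)))
  · exact add_le_add p2 (mul_le_mul hr' e2 (ent_pt_pos E).le (by linarith))

lemma quarter_checks : (1 / 4 ≤ eLB quarterLo ∧ eUB quarterHi ≤ 1 / 4) ∧
    0 < logUB quarterLo := by decide +kernel

lemma ent_pt_quarter :
    1 / 4 ≤ ent (tanh (pt quarterLo)) ∧ ent (tanh (pt quarterHi)) ≤ 1 / 4 := by
  obtain ⟨⟨h1, h2⟩, -⟩ := quarter_checks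
  have a := (eLB_le (E := quarterLo) (by norm_num [quarterLo])).1
  have b := (eLB_le (E := quarterHi) (by norm_num [quarterHi])).2
  have h1' : (1 / 4 : ℝ) ≤ (eLB quarterLo : ℝ) := by
    have := (Rat.cast_le (K := ℝ)).2 h1; push_cast at this; exact this
  have h2' : (eUB quarterHi : ℝ) ≤ 1 / 4 := by
    have := (Rat.cast_le (K := ℝ)).2 h2; push_cast at this; exact this
  exact ⟨h1'.trans a, b.trans h2'⟩

theorem rateLB_quarter_le : (rateLB quarterLo : ℝ) ≤ rate (1 / 4) :=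
  (rateLB_le (by norm_num [quarterLo]) quarter_checks.2).trans
    (antitoneOn_rate (show (0 : ℝ) < 1 / 4 by norm_num) (ent_pt_pos _) ent_pt_quarter.1)

theorem Phi_quarter_le : Phi (1 / 4) ≤ (phiUB quarterHi : ℝ) :=
  (antitoneOn_Phi (ent_pt_pos _) (show (0 : ℝ) < 1 / 4 by norm_num) ent_pt_quarter.2).trans
    (phi_bounds (by norm_num [quarterHi])).2

theorem Phi2_le_phi2UB {x E : ℚ} (h : phi2OK x E = true) : Phi2 (x : ℝ) ≤ (phi2UB x E : ℝ) := by
  simp only [phi2OK, Bool.and_eq_true, Bool.or_eq_true, decide_eq_true_eq] at h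
  obtain ⟨hx, h⟩ := h
  have hxR : (0 : ℝ) < x := by exact_mod_cast hx
  by_cases hq : 1 / 4 < x
  · have hqR : (1 / 4 : ℝ) < x := by
      have := (Rat.cast_lt (K := ℝ)).2 hq; push_cast at this; exact this
    rw [phi2UB, if_pos hq, Phi2, if_neg (not_le.2 hqR)]
    push_cast
    have := Phi_quarter_le
    have := rateLB_quarter_le
    nlinarith
  · obtain ⟨hE, he⟩ := h.resolve_left hq
    rw [phi2UB, if_neg hq]
    refine (Phi2_le_Phi hxR).trans (le_trans ?_ (phi_bounds hE).2)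
    exact antitoneOn_Phi (ent_pt_pos E) hxR ((eLB_le hE).2.trans (by exact_mod_cast he))

/-- The hypotheses on the edge term: it is nonnegative and dominates every certificate. -/
structure Edge (m d H K : ℝ) : Prop where
  /-- nonnegativity -/
  nonneg : 0 ≤ K
  /-- the certificates -/
  cert : ∀ a b : ℝ, 0 ≤ a → 0 < b →
    certLam a b * d - certMu a b * (H + certNu a b * (1 - m)) ≤ K

theorem mkCert_sound {A B : ℚ} {c : Cert} (h : mkCert A B = some c) {m d H K : ℝ}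
    (hK : Edge m d H K) (hd : 0 ≤ d) (hH : 0 ≤ H) (hm : m ≤ 1) :
    (c.lam : ℝ) * d - (c.mu : ℝ) * (H + (c.nu : ℝ) * (1 - m)) ≤ K := by
  by_cases hB : B = 1
  · simp only [mkCert, hB, if_true, Option.some.injEq] at h
    subst h
    simpa using hK.nonneg
  rw [mkCert, if_neg hB] at h
  simp only [Option.ite_none_right_eq_some, Option.some.injEq] at h
  obtain ⟨⟨hA, hB1, hden⟩, rfl⟩ := h
  have hA0 : 0 < A := lt_of_lt_of_le one_pos hA
  have hB0 : 0 < B := lt_trans one_pos hB1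
  have hAR : (1 : ℝ) ≤ A := by exact_mod_cast hA
  have hBR : (1 : ℝ) < B := by exact_mod_cast hB1
  set a := pt A with ha_def
  set b := pt B with hb_def
  have ha : 0 ≤ a := pt_nonneg hA
  have hb : 0 < b := div_pos (log_pos hBR) (by norm_num)
  have eA : exp (2 * a) = (A : ℝ) := exp_two_pt hA0
  have eB : exp (2 * b) = (B : ℝ) := exp_two_pt hB0
  have eA' : exp (-(2 * a)) = 1 / (A : ℝ) := by rw [exp_neg, eA, one_div]
  have hC : cosh (2 * a) = ((A : ℝ) + 1 / (A : ℝ)) / 2 := by rw [cosh_eq, eA, eA']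
  have hc : cosh (2 * b) = ((B : ℝ) + 1 / (B : ℝ)) / 2 := by
    rw [cosh_eq, eB, exp_neg, eB, one_div]
  have hS : sinh (2 * a) = ((A : ℝ) - 1 / (A : ℝ)) / 2 := by rw [sinh_eq, eA, eA']
  have hs : sinh (2 * b) = ((B : ℝ) - 1 / (B : ℝ)) / 2 := by
    rw [sinh_eq, eB, exp_neg, eB, one_div]
  have hu : 0 < uFn a b := uFn_pos a b
  have hq : 0 < 2 * ((A + 1 / A) / 2 + (B + 1 / B) / 2) := by positivity
  have l1 := logLB_le_log hq
  have l2 := log_le_logUB hq
  have el : lFn a b = log ((2 * ((A + 1 / A) / 2 + (B + 1 / B) / 2) : ℚ) : ℝ) := by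
    rw [lFn, uFn, hC, hc]; push_cast; ring_nf
  rw [← el] at l1 l2
  have a1 : (logLB A : ℝ) / 2 ≤ a := div_le_div_of_nonneg_right (logLB_le_log hA0) (by norm_num)
  have a2 : a ≤ (logUB A : ℝ) / 2 := div_le_div_of_nonneg_right (log_le_logUB hA0) (by norm_num)
  have b1 : (logLB B : ℝ) / 2 ≤ b := div_le_div_of_nonneg_right (logLB_le_log hB0) (by norm_num)
  have b2 : b ≤ (logUB B : ℝ) / 2 := div_le_div_of_nonneg_right (log_le_logUB hB0) (by norm_num)
  have hS0 : 0 ≤ sinh (2 * a) := sinh_nonneg_iff.2 (by linarith)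
  have hs0 : 0 < sinh (2 * b) := sinh_pos_iff.2 (by linarith)
  have hC0 : 0 < cosh (2 * a) := cosh_pos _
  have hc0 : 0 < cosh (2 * b) := cosh_pos _
  have hnu := certNu_nonneg ha b
  have he2 := e2Fn_nonneg a b
  have hden' : (0 : ℝ) < (logLB (2 * ((A + 1 / A) / 2 + (B + 1 / B) / 2)) : ℝ)
      - 2 * ((logUB A : ℝ) / 2) := by
    have := (Rat.cast_lt (K := ℝ)).2 hden; push_cast at this ⊢; exact this
  have hp : 0 < (A : ℝ) * uFn a b := by positivity
  -- bounds of the three coefficients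
  have nuU : certNu a b ≤ (A : ℝ) * (sinh (2 * a) * (logUB (2 * ((A + 1 / A) / 2 + (B + 1 / B) / 2)) : ℝ)
      - 2 * ((logLB A : ℝ) / 2) * cosh (2 * a)) / 2 := by
    rw [certNu, eA]; gcongr
  have muU : certMu a b ≤ sinh (2 * b) ^ 2 / ((A : ℝ) * uFn a b
      * ((logLB (2 * ((A + 1 / A) / 2 + (B + 1 / B) / 2)) : ℝ) - 2 * ((logUB A : ℝ) / 2))) := by
    rw [certMu, eA]; gcongr
  have muL : max 0 (sinh (2 * b) ^ 2 / ((A : ℝ) * uFn a b
      * ((logUB (2 * ((A + 1 / A) / 2 + (B + 1 / B) / 2)) : ℝ) - 2 * ((logLB A : ℝ) / 2))))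
      ≤ certMu a b := by
    refine max_le (certMu_pos hb).le ?_
    rw [certMu, eA]
    have := lFn_sub_pos a b
    gcongr
  have lamL : (logLB B : ℝ) / 2 + max 0 (sinh (2 * b) ^ 2 / ((A : ℝ) * uFn a b
      * ((logUB (2 * ((A + 1 / A) / 2 + (B + 1 / B) / 2)) : ℝ) - 2 * ((logLB A : ℝ) / 2))))
      * (max 0 (uFn a b * (logLB (2 * ((A + 1 / A) / 2 + (B + 1 / B) / 2)) : ℝ) / 2
          - (logUB A : ℝ) / 2 * sinh (2 * a) - (logUB B : ℝ) / 2 * sinh (2 * b))
        + max 0 ((A : ℝ) * (sinh (2 * a) * (logLB (2 * ((A + 1 / A) / 2 + (B + 1 / B) / 2)) : ℝ)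
            - 2 * ((logUB A : ℝ) / 2) * cosh (2 * a)) / 2)
          * (1 / (A : ℝ) + cosh (2 * b))) / sinh (2 * b) ≤ certLam a b := by
    rw [certLam, eA']
    have h1 : max 0 (uFn a b * (logLB (2 * ((A + 1 / A) / 2 + (B + 1 / B) / 2)) : ℝ) / 2
          - (logUB A : ℝ) / 2 * sinh (2 * a) - (logUB B : ℝ) / 2 * sinh (2 * b)) ≤ e2Fn a b := by
      refine max_le he2 ?_
      rw [e2Fn]; gcongr
    have h2 : max 0 ((A : ℝ) * (sinh (2 * a) * (logLB (2 * ((A + 1 / A) / 2 + (B + 1 / B) / 2)) : ℝ)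
            - 2 * ((logUB A : ℝ) / 2) * cosh (2 * a)) / 2) ≤ certNu a b := by
      refine max_le hnu ?_
      rw [certNu, eA]; gcongr
    have hA' : (0 : ℝ) < A := by linarith
    gcongr
    · exact (certMu_pos hb).le
  refine le_trans ?_ (hK.cert a b ha hb)
  have hm1 : 0 ≤ 1 - m := by linarith
  have hmu := (certMu_pos (a := a) hb).le
  push_cast
  simp only [hC, hc, hS, hs, uFn] at nuU muU lamL ⊢
  gcongr

end Vale.Agent.P322.Check
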