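import Vale.Agent.P322.Check.Band

/-!
# Courtade–Kumar: corner tests for the exit of the tilted path

At the exit the information is `log 2 - 1/4`, so `H = ent m - log 2 + 1/4`; over a slice of `m`
it lies between a chord and a tangent, and the margin is concave in `(m, d, H)`.
-/

namespace Vale.Agent.P322.Check

open Real Set

/-- A piece: the upper line `d = q2 * (1 - m)`, the certificate and the children's bound. -/
structure ELeaf where
  /-- upper slope -/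
  q2 : ℚ
  /-- `exp (2 a)` -/
  A : ℚ
  /-- `exp (2 b)` -/
  B : ℚ
  /-- children's slope -/
  c : ℚ
  /-- children's constant -/
  c0 : ℚ

/-- A slice. -/
structure ESlice where
  /-- right end -/
  m2 : ℚ
  /-- pieces from below -/
  segs : List ELeaf

/-- Lower bound of the exit entropy at `m`. -/
def hExitLo (m : ℚ) : ℚ := entLB m - logUB 2 + 1 / 4

/-- The tangent bound of the exit entropy at the left end. -/
def hExitL (m1 m2 : ℚ) : ℚ :=
  let mc := (m1 + m2) / 2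
  entUB mc + logUB ((1 + mc) / (1 - mc)) / 2 * (mc - m1) - logLB 2 + 1 / 4

/-- The tangent bound of the exit entropy at the right end. -/
def hExitR (m1 m2 : ℚ) : ℚ :=
  let mc := (m1 + m2) / 2
  entUB mc - logLB ((1 + mc) / (1 - mc)) / 2 * (m2 - mc) - logLB 2 + 1 / 4

/-- The lower bound of the exit margin. -/
noncomputable def emargin (k : Cert) (c c0 : ℚ) (m d H : ℝ) : ℝ :=
  (k.lam : ℝ) * d - (k.mu : ℝ) * (H + (k.nu : ℝ) * (1 - m))
    + (c : ℝ) * ((ent (m + d) + ent (m - d)) / 2 - H) + (c0 : ℝ) - (phiUB quarterHi : ℝ)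

/-- A good point. -/
structure EGood (k : Cert) (c c0 : ℚ) (m d H : ℝ) : Prop where
  /-- first child -/
  hp : m + d ∈ Icc (-1 : ℝ) 1
  /-- second child -/
  hq : m - d ∈ Icc (-1 : ℝ) 1
  /-- margin -/
  hF : 0 ≤ emargin k c c0 m d H

/-- The rational test at a corner. -/
def ecornerOK (k : Cert) (c c0 m d H : ℚ) : Bool :=
  decide (-1 ≤ m + d) && decide (m + d ≤ 1) && decide (-1 ≤ m - d) && decide (m - d ≤ 1) &&
    decide (0 ≤ k.lam * d - k.mu * (H + k.nu * (1 - m))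
      + c * ((entLB (m + d) + entLB (m - d)) / 2 - H) + c0 - phiUB quarterHi)

theorem ecornerOK_good {k : Cert} {c c0 m d H : ℚ} (hc : 0 ≤ c)
    (h : ecornerOK k c c0 m d H = true) : EGood k c c0 (m : ℝ) (d : ℝ) (H : ℝ) := by
  simp only [ecornerOK, Bool.and_eq_true, decide_eq_true_eq] at h
  obtain ⟨⟨⟨⟨h1, h2⟩, h3⟩, h4⟩, h5⟩ := h
  refine ⟨⟨by exact_mod_cast h1, by exact_mod_cast h2⟩,
    ⟨by exact_mod_cast h3, by exact_mod_cast h4⟩, ?_⟩
  have a := entLB_le_ent h1 h2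
  have b := entLB_le_ent h3 h4
  push_cast at a b
  have h5' := (Rat.cast_le (K := ℝ)).2 h5
  push_cast at h5'
  have ab := mul_le_mul_of_nonneg_left (add_le_add a b) (show (0 : ℝ) ≤ (c : ℝ) by exact_mod_cast hc)
  unfold emargin
  linarith

theorem EGood.combine {k : Cert} {c c0 : ℚ} (hc : 0 ≤ c) {m0 d0 H0 m1 d1 H1 a b : ℝ}
    (h0 : EGood k c c0 m0 d0 H0) (h1 : EGood k c c0 m1 d1 H1) (ha : 0 ≤ a) (hb : 0 ≤ b)
    (hab : a + b = 1) :
    EGood k c c0 (a * m0 + b * m1) (a * d0 + b * d1) (a * H0 + b * H1) := by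
  have ep : a * m0 + b * m1 + (a * d0 + b * d1) = a * (m0 + d0) + b * (m1 + d1) := by ring
  have eq : a * m0 + b * m1 - (a * d0 + b * d1) = a * (m0 - d0) + b * (m1 - d1) := by ring
  refine ⟨ep ▸ convex_Icc (-1 : ℝ) 1 h0.hp h1.hp ha hb hab,
    eq ▸ convex_Icc (-1 : ℝ) 1 h0.hq h1.hq ha hb hab, ?_⟩
  have c1 := concaveOn_ent.2 h0.hp h1.hp ha hb hab
  have c2 := concaveOn_ent.2 h0.hq h1.hq ha hb hab
  simp only [smul_eq_mul] at c1 c2
  have hcR : (0 : ℝ) ≤ (c : ℝ) := by exact_mod_cast hc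
  have c4 := mul_le_mul_of_nonneg_left (add_le_add c1 c2) hcR
  have g0 := mul_nonneg ha h0.hF
  have g1 := mul_nonneg hb h1.hF
  obtain rfl : b = 1 - a := by linarith
  unfold emargin at g0 g1 ⊢
  rw [ep, eq]
  linarith

/-- Test of a piece. -/
def eleafOK (m1 m2 q1 : ℚ) (f : ELeaf) : Bool :=
  match mkCert f.A f.B with
  | some k =>
      childOK f.c f.c0 &&
      ecornerOK k f.c f.c0 m1 (q1 * (1 - m1)) (hExitLo m1) &&
      ecornerOK k f.c f.c0 m1 (q1 * (1 - m1)) (hExitL m1 m2) &&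
      ecornerOK k f.c f.c0 m1 (f.q2 * (1 - m1)) (hExitLo m1) &&
      ecornerOK k f.c f.c0 m1 (f.q2 * (1 - m1)) (hExitL m1 m2) &&
      ecornerOK k f.c f.c0 m2 (q1 * (1 - m2)) (hExitLo m2) &&
      ecornerOK k f.c f.c0 m2 (q1 * (1 - m2)) (hExitR m1 m2) &&
      ecornerOK k f.c f.c0 m2 (f.q2 * (1 - m2)) (hExitLo m2) &&
      ecornerOK k f.c f.c0 m2 (f.q2 * (1 - m2)) (hExitR m1 m2)
  | none => false

/-- Test of consecutive pieces up to `d = 1 - m`. -/
def esegsOK (m1 m2 : ℚ) : ℚ → List ELeaf → Bool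
  | q1, [] => decide (1 ≤ q1)
  | q1, s :: rest => eleafOK m1 m2 q1 s && esegsOK m1 m2 s.q2 rest

/-- Test of the slices; they must reach the end of the exit range. -/
def eslicesOK (q0 : ℚ) : ℚ → List ESlice → Bool
  | m1, [] => decide (0 ≤ m1) && decide (m1 ≤ 1) && decide (entUB m1 + 1 / 4 ≤ logLB 2)
  | m1, s :: rest =>
      decide (0 ≤ m1) && decide (m1 < s.m2) && decide (s.m2 < 1) &&
      esegsOK m1 s.m2 q0 s.segs && eslicesOK q0 s.m2 rest

theorem log_two_bounds : (logLB 2 : ℝ) ≤ log 2 ∧ log 2 ≤ (logUB 2 : ℝ) := by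
  have a := logLB_le_log (q := 2) (by norm_num)
  have b := log_le_logUB (q := 2) (by norm_num)
  push_cast at a b
  exact ⟨a, b⟩

theorem ent_le_tangent {mc m : ℝ} (hmc : mc ∈ Ioo (-1 : ℝ) 1) (hm : m ∈ Icc (-1 : ℝ) 1) :
    ent m ≤ ent mc - artanh mc * (m - mc) := by
  have hd : HasDerivAt ent (-artanh mc) mc := Skel.hasDerivAt_hbin hmc.1 hmc.2
  have hmc' := Ioo_subset_Icc_self hmc
  rcases lt_trichotomy m mc with h | h | h
  · have := concaveOn_ent.le_slope_of_hasDerivAt hm hmc' h hd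
    rw [slope_def_field, le_div_iff₀ (sub_pos.2 h)] at this
    linarith
  · subst h; simp
  · have := concaveOn_ent.slope_le_of_hasDerivAt hmc' hm h hd
    rw [slope_def_field, div_le_iff₀ (sub_pos.2 h)] at this
    linarith

theorem eleafOK_step {m1 m2 q1 : ℚ} {f : ELeaf} (h : eleafOK m1 m2 q1 f = true)
    (h0 : 0 ≤ m1) (h12 : m1 < m2) (h21 : m2 < 1) {m d H K : ℝ} (hm1 : (m1 : ℝ) ≤ m)
    (hm2 : m ≤ (m2 : ℝ)) (hlo : (q1 : ℝ) * (1 - m) ≤ d) (hhi : d ≤ (f.q2 : ℝ) * (1 - m))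
    (hd : 0 ≤ d) (hH : 0 < H) (hX : H = ent m - log 2 + 1 / 4)
    (hE : H ≤ (ent (m + d) + ent (m - d)) / 2) (hK : Edge m d H K) :
    Phi (1 / 4) - F0 ((ent (m + d) + ent (m - d)) / 2 - H) ≤ K := by
  unfold eleafOK at h
  split at h
  case h_2 => exact absurd h (by simp)
  rename_i k hk
  simp only [childOK, Bool.and_eq_true, decide_eq_true_eq] at h
  obtain ⟨⟨⟨⟨⟨⟨⟨⟨⟨hc, hc0⟩, a1⟩, a2⟩, a3⟩, a4⟩, a5⟩, a6⟩, a7⟩, a8⟩ := h
  have g1 := ecornerOK_good hc a1
  have g2 := ecornerOK_good hc a2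
  have g3 := ecornerOK_good hc a3
  have g4 := ecornerOK_good hc a4
  have g5 := ecornerOK_good hc a5
  have g6 := ecornerOK_good hc a6
  have g7 := ecornerOK_good hc a7
  have g8 := ecornerOK_good hc a8
  push_cast at g1 g2 g3 g4 g5 g6 g7 g8
  have h0R : (0 : ℝ) ≤ (m1 : ℝ) := by exact_mod_cast h0
  have h12R : (m1 : ℝ) < (m2 : ℝ) := by exact_mod_cast h12
  have h21R : (m2 : ℝ) < 1 := by exact_mod_cast h21
  obtain ⟨α, β, hα, hβ, hαβ, hem⟩ := exists_weights hm1 hm2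
  have eq1 : ∀ q : ℝ, α * (q * (1 - (m1 : ℝ))) + β * (q * (1 - (m2 : ℝ))) = q * (1 - m) := fun q => by
    rw [← hem]; linear_combination q * hαβ
  have e1 := g1.combine hc g5 hα hβ hαβ
  have e2 := g2.combine hc g6 hα hβ hαβ
  have e3 := g3.combine hc g7 hα hβ hαβ
  have e4 := g4.combine hc g8 hα hβ hαβ
  rw [hem, eq1] at e1 e2 e3 e4
  obtain ⟨L1, L2⟩ := log_two_bounds
  -- the chord
  have hl : α * (hExitLo m1 : ℝ) + β * (hExitLo m2 : ℝ) ≤ H := by
    have a := entLB_le_ent (x := m1) (by linarith) (by linarith)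
    have b := entLB_le_ent (x := m2) (by linarith) (by linarith)
    have c := concaveOn_ent.2 (show (m1 : ℝ) ∈ Icc (-1 : ℝ) 1 from ⟨by linarith, by linarith⟩)
      (show (m2 : ℝ) ∈ Icc (-1 : ℝ) 1 from ⟨by linarith, by linarith⟩) hα hβ hαβ
    simp only [smul_eq_mul, hem] at c
    have a' := mul_le_mul_of_nonneg_left a hα
    have b' := mul_le_mul_of_nonneg_left b hβ
    rw [hX, hExitLo, hExitLo]
    push_cast
    obtain rfl : β = 1 - α := by linarith
    linarith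
  -- the tangent
  have hu : H ≤ α * (hExitL m1 m2 : ℝ) + β * (hExitR m1 m2 : ℝ) := by
    set mc := (m1 + m2) / 2 with hmc
    have hmcR : (mc : ℝ) = ((m1 : ℝ) + m2) / 2 := by rw [hmc]; push_cast; ring
    have hmem : (mc : ℝ) ∈ Ioo (-1 : ℝ) 1 := ⟨by linarith, by linarith⟩
    have t := ent_le_tangent hmem (m := m) ⟨by linarith, by linarith⟩
    have u := ent_le_entUB (x := mc) (by linarith) (by linarith)
    have hq : 0 < (1 + mc) / (1 - mc) := div_pos (by linarith) (by linarith)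
    have s1 := logLB_le_log hq
    have s2 := log_le_logUB hq
    push_cast at s1 s2
    rw [artanh_eq_half_log ⟨hmem.1.le, hmem.2.le⟩] at t
    have p1 := mul_le_mul_of_nonneg_left s2 (mul_nonneg hα (by linarith : (0 : ℝ) ≤ (mc : ℝ) - m1))
    have p2 := mul_le_mul_of_nonneg_left s1 (mul_nonneg hβ (by linarith : (0 : ℝ) ≤ (m2 : ℝ) - mc))
    rw [hX, hExitL, hExitR, ← hmc]
    push_cast
    rw [← hem] at t ⊢
    obtain rfl : β = 1 - α := by linarith
    linarith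
  obtain ⟨a, b, ha, hb, hab, hed⟩ := exists_weights hlo hhi
  have gl := e1.combine hc e3 ha hb hab
  have gh := e2.combine hc e4 ha hb hab
  rw [← add_mul a b m, hab, one_mul, hed, ← add_mul a b, hab, one_mul] at gl gh
  obtain ⟨a', b', ha', hb', hab', heH⟩ := exists_weights hl hu
  have g := gl.combine hc gh ha' hb' hab'
  rw [← add_mul a' b' m, hab', one_mul, ← add_mul a' b' d, hab', one_mul, heH] at g
  have hcert := mkCert_sound hk hK hd hH.le (by linarith)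
  have hc0' : (f.c0 : ℝ) ≤ -3 / 8 * ((f.c : ℝ) - 2) ^ 2 := by
    have := (Rat.cast_le (K := ℝ)).2 hc0; push_cast at this; exact this
  have hF0 := affine_le_F0 hc0' (show 0 ≤ (ent (m + d) + ent (m - d)) / 2 - H by linarith)
    (by linarith [ent_le_log_two (m + d), ent_le_log_two (m - d)])
  have hF := g.hF
  have h4 := Phi_quarter_le
  unfold emargin at hF
  linarith

theorem esegsOK_step {m1 m2 : ℚ} (h0 : 0 ≤ m1) (h12 : m1 < m2) (h21 : m2 < 1) :
    ∀ (L : List ELeaf) (q1 : ℚ), esegsOK m1 m2 q1 L = true → ∀ {m d H K : ℝ}, (m1 : ℝ) ≤ m →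
      m ≤ (m2 : ℝ) → (q1 : ℝ) * (1 - m) ≤ d → 0 ≤ d → m + d < 1 → 0 < H →
      H = ent m - log 2 + 1 / 4 → H ≤ (ent (m + d) + ent (m - d)) / 2 → Edge m d H K →
      Phi (1 / 4) - F0 ((ent (m + d) + ent (m - d)) / 2 - H) ≤ K := by
  intro L
  induction L with
  | nil =>
    intro q1 h m d H K _ hm2 hlo _ hmd _ _ _ _
    simp only [esegsOK, decide_eq_true_eq] at h
    have h' : (1 : ℝ) ≤ (q1 : ℝ) := by exact_mod_cast h
    have : 0 ≤ 1 - m := by linarith [show (m2 : ℝ) < 1 by exact_mod_cast h21]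
    nlinarith
  | cons s rest ih =>
    intro q1 h m d H K hm1 hm2 hlo hd hmd hH hX hE hK
    simp only [esegsOK, Bool.and_eq_true] at h
    rcases le_total d ((s.q2 : ℝ) * (1 - m)) with hle | hge
    · exact eleafOK_step h.1 h0 h12 h21 hm1 hm2 hlo hle hd hH hX hE hK
    · exact ih s.q2 h.2 hm1 hm2 hge hd hmd hH hX hE hK

theorem eslicesOK_step {q0 : ℚ} :
    ∀ (L : List ESlice) (m1 : ℚ), eslicesOK q0 m1 L = true → ∀ {m d H K : ℝ}, (m1 : ℝ) ≤ m →
      (q0 : ℝ) * (1 - m) ≤ d → 0 ≤ d → m + d < 1 → 0 < H → H = ent m - log 2 + 1 / 4 →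
      H ≤ (ent (m + d) + ent (m - d)) / 2 → Edge m d H K →
      Phi (1 / 4) - F0 ((ent (m + d) + ent (m - d)) / 2 - H) ≤ K := by
  intro L
  induction L with
  | nil =>
    intro m1 h m d H K hm1 _ hd hmd hH hX _ _
    simp only [eslicesOK, Bool.and_eq_true, decide_eq_true_eq] at h
    obtain ⟨⟨h0, h1⟩, h2⟩ := h
    have h0R : (0 : ℝ) ≤ (m1 : ℝ) := by exact_mod_cast h0
    have hmono : ent m ≤ ent (m1 : ℝ) :=
      Skel.strictAntiOn_hbin.antitoneOn ⟨h0R, by exact_mod_cast h1⟩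
        ⟨h0R.trans hm1, by linarith⟩ hm1
    have a := ent_le_entUB (x := m1) (by linarith) h1
    have b := log_two_bounds.1
    have h2' := (Rat.cast_le (K := ℝ)).2 h2
    push_cast at h2'
    linarith
  | cons s rest ih =>
    intro m1 h m d H K hm1 hlo hd hmd hH hX hE hK
    simp only [eslicesOK, Bool.and_eq_true, decide_eq_true_eq] at h
    obtain ⟨⟨⟨⟨h0, h12⟩, h21⟩, hs⟩, hrest⟩ := h
    rcases le_total m (s.m2 : ℝ) with hle | hge
    · exact esegsOK_step h0 h12 h21 s.segs q0 hs hm1 hle hlo hd hmd hH hX hE hK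
    · exact ih s.m2 hrest hge hlo hd hmd hH hX hE hK

end Vale.Agent.P322.Check
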