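import Vale.Agent.P322.Check.GBand
import Vale.Agent.P322.Check.ExitBand
import Vale.Agent.P322.Scalar.SatAtom
import Vale.Agent.P322.Scalar.Children

/-!
# Courtade–Kumar: a band of slopes of the saturation step

A band consists of pieces for the children's saturation terms (small `d`), slices for the
children's information terms, and, next to the equality curve, the test `gbandOK`.
-/

namespace Vale.Agent.P322.Check

open Real Set

/-- An upper bound of `Phi2`'s zero. -/
def satLimit : ℚ := 1409 / 2500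

/-- The data of a band. -/
structure BandData where
  /-- `exp (2 b)` at a lower end of the band -/
  Ev : ℚ
  /-- `exp (2 b)` at an upper end of the band -/
  Eu : ℚ
  /-- lower slope of the entropy -/
  rlo : ℚ
  /-- upper slope of the entropy -/
  rhi : ℚ
  /-- end of the pieces with the children's saturation terms -/
  dP : ℚ
  /-- end of `d` for the slices -/
  dT : ℚ
  /-- pieces -/
  P : List PLeaf
  /-- slices -/
  T : List Slice
  /-- the states next to the equality curve, with the tangent point of the cut -/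
  G : Option (GBand × ℚ)

/-- `tanh b` for `exp (2 b) = E`. -/
def tanhQ (E : ℚ) : ℚ := (E - 1) / (E + 1)

/-- The cut of a band: `H ≤ a + c d`. -/
def cutOf (t0 Em : ℚ) : ℚ × ℚ :=
  (t0 * (logUB (1 + 1 / Em) + logUB Em / 2), -(logLB Em / 2))

/-- The slices' band. -/
def BandData.tband (B : BandData) : TBand :=
  ⟨B.rlo, 0, some B.rhi, B.G.map fun q => cutOf q.1.t0 q.2, satLimit, B.dP, B.dT⟩

/-- The test of a band. -/
def BandData.ok (B : BandData) : Bool :=
  decide (1 ≤ B.Ev) && decide (1 < B.Eu) && decide (0 < B.rlo) && decide (B.rlo ≤ B.rhi) &&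
  decide (B.rhi * tanhQ B.Ev ≤ eLB B.Ev) && decide (eUB B.Eu ≤ B.rlo * tanhQ B.Eu) &&
  pbandOK B.rlo B.rhi B.dP (tanhQ B.Ev / 2) B.P && slicesOK B.tband 0 B.T &&
  match B.G with
  | none => decide (tanhQ B.Eu ≤ B.dT)
  | some (g, Em) =>
      gbandOK g && decide (g.rlo = B.rlo) && decide (g.rhi = B.rhi) &&
      decide (g.t0 * tanhQ B.Eu ≤ B.dT) && decide (1 ≤ Em) &&
      decide (0 ≤ logUB (1 + 1 / Em) + logUB Em / 2)

/-- The test of the band of small `b`: only slices. -/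
def smallOK (E0 rlo kap dT : ℚ) (T : List Slice) : Bool :=
  decide (1 < E0) && decide (logUB E0 / 2 ≤ 1 / 5) && decide (eUB E0 ≤ rlo * tanhQ E0) &&
  decide (kap ≤ 27 / 50 * eLB E0) && decide (0 ≤ kap) && decide (tanhQ E0 ≤ dT) &&
  slicesOK ⟨rlo, kap, none, none, satLimit, 0, dT⟩ 0 T

/-! ### Soundness -/

lemma satLimit_check : phiUB quarterHi ≤ rateLB quarterLo * (satLimit - 1 / 4) ∧
    (1 / 4 : ℚ) ≤ satLimit := by decide +kernel

lemma persp2_nonpos {w H : ℝ} (hw : 0 < w) (h : (satLimit : ℝ) * w ≤ H) : persp2 w H ≤ 0 := by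
  obtain ⟨c1, c2⟩ := satLimit_check
  have c1' := (Rat.cast_le (K := ℝ)).2 c1
  have c2' := (Rat.cast_le (K := ℝ)).2 c2
  push_cast at c1' c2'
  have hx : (satLimit : ℝ) ≤ H / w := (le_div_iff₀ hw).2 h
  refine mul_nonpos_of_nonneg_of_nonpos hw.le ?_
  have h1 := Phi_quarter_le
  have h2 := rateLB_quarter_le
  unfold Phi2
  split_ifs with hq
  · have e : H / w = 1 / 4 := le_antisymm hq (c2'.trans hx)
    have : (satLimit : ℝ) = 1 / 4 := le_antisymm (e ▸ hx) c2'
    rw [this, sub_self, mul_zero] at c1'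
    rw [e]; linarith
  · have h3 := mul_le_mul_of_nonneg_left (sub_le_sub_right hx (1 / 4))
      (show (0 : ℝ) ≤ rate (1 / 4) by linarith [two_le_rate (1 / 4)])
    have h4 := mul_le_mul_of_nonneg_right h2 (show (0 : ℝ) ≤ (satLimit : ℝ) - 1 / 4 by linarith)
    linarith

lemma tanhQ_eq {E : ℚ} (h : 0 < E) : (tanhQ E : ℝ) = tanh (pt E) := by
  rw [tanh_pt h, tanhQ]; push_cast; rfl

/-- The slope `ent (tanh b) / tanh b` decreases. -/
lemma le_of_slope {b c ρ : ℝ} (hb : 0 < b) (hc : 0 ≤ c)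
    (h1 : ent (tanh b) ≤ ρ * tanh b) (h2 : ρ * tanh c ≤ ent (tanh c)) : c ≤ b := by
  by_contra hcb
  push Not at hcb
  have e := ent_tanh_lt_ent_tanh hb.le hcb
  have t := (strictMono_tanh' hcb).le
  have tb : 0 < tanh b := by simpa using strictMono_tanh' hb
  have hρ : 0 < ρ := by
    by_contra hρ
    push Not at hρ
    linarith [ent_tanh_pos b, mul_nonpos_of_nonpos_of_nonneg hρ tb.le]
  linarith [mul_le_mul_of_nonneg_left t hρ.le]

/-- The tangent of `ent` of slope `-β`. -/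
lemma ent_le_line {β : ℝ} (hβ : 0 ≤ β) {x : ℝ} (hx : x ∈ Icc (-1 : ℝ) 1) :
    ent x ≤ log (2 * cosh β) - β * x := by
  have h := ent_le_tangent ⟨neg_one_lt_tanh β, tanh_lt_one β⟩ hx
  rw [artanh_tanh, ent_tanh] at h
  linarith

/-- The line of the cut. -/
lemma cut_line {Em : ℚ} (h : 1 ≤ Em) {x : ℝ} (h0 : 0 ≤ x) (h1 : x ≤ 1) :
    ent x ≤ ((logUB (1 + 1 / Em) + logUB Em / 2 : ℚ) : ℝ) - ((logLB Em / 2 : ℚ) : ℝ) * x := by
  have h0' : 0 < Em := lt_of_lt_of_le one_pos h
  have hR : (0 : ℝ) < Em := by exact_mod_cast h0'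
  refine (ent_le_line (pt_nonneg h) ⟨by linarith, h1⟩).trans ?_
  have a := log_le_logUB (q := 1 + 1 / Em) (by positivity)
  have b := log_le_logUB h0'
  have c := logLB_le_log h0'
  push_cast at a ⊢
  have e : log (2 * cosh (pt Em)) = log (1 + 1 / (Em : ℝ)) + pt Em := by
    rw [show 2 * cosh (pt Em) = exp (pt Em) * (1 + 1 / (Em : ℝ)) by
      rw [← exp_two_pt h0', cosh_eq, exp_neg, show 2 * pt Em = pt Em + pt Em by ring, exp_add]
      field_simp,
      log_mul (exp_pos _).ne' (by positivity), log_exp]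
    ring
  rw [e, pt]
  have := mul_le_mul_of_nonneg_right c h0
  linarith

lemma half_le_tanh {b x ρ : ℝ} (hb : 0 < b) (hx1 : x ≤ 1)
    (hbρ : ent (tanh b) = ρ * tanh b) (h : ρ * x ≤ ent x) : x ≤ tanh b := by
  by_contra hc
  push Not at hc
  have tb : 0 < tanh b := by simpa using strictMono_tanh' hb
  have hρ : 0 < ρ := by
    refine pos_of_mul_pos_left ?_ tb.le
    rw [← hbρ]; exact ent_tanh_pos b
  have e : ent x < ent (tanh b) :=
    Skel.strictAntiOn_hbin ⟨tb.le, (tanh_lt_one b).le⟩ ⟨by linarith, hx1⟩ hc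
  linarith [mul_lt_mul_of_pos_left hc hρ]

/-- The atom's entropy is at most that of its half difference. -/
lemma atom_h_le (a b : ℝ) :
    (ent (tanh (a + b)) + ent (tanh (a - b))) / 2 ≤ ent ((tanh (a + b) - tanh (a - b)) / 2) := by
  have h := concaveOn_ent.2 (show tanh (a + b) ∈ Icc (-1 : ℝ) 1 from
      ⟨(neg_one_lt_tanh _).le, (tanh_lt_one _).le⟩)
    (show -tanh (a - b) ∈ Icc (-1 : ℝ) 1 from
      ⟨by linarith [tanh_lt_one (a - b)], by linarith [neg_one_lt_tanh (a - b)]⟩)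
    (show (0 : ℝ) ≤ 1 / 2 by norm_num) (show (0 : ℝ) ≤ 1 / 2 by norm_num) (by norm_num)
  simp only [smul_eq_mul, ent_neg] at h
  rw [show (tanh (a + b) - tanh (a - b)) / 2
    = 1 / 2 * tanh (a + b) + 1 / 2 * -tanh (a - b) by ring]
  linarith

lemma satWeight_sub_le {m M t : ℝ} (ht : t ≤ 1) (hm : m = 1 - t * (1 - M)) :
    satWeight m - t * satWeight M ≤ (1 - t) * qFn M := by
  have h := satWeight_le_wTan M m
  rw [wTan] at h
  have e : m - M = (1 - t) * (1 - M) := by rw [hm]; ring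
  rw [e] at h
  unfold qFn
  linarith

lemma gbandOK_t0 {g : GBand} (h : gbandOK g = true) : (0 : ℝ) < (g.t0 : ℝ) := by
  simp only [gbandOK, Bool.and_eq_true, decide_eq_true_eq] at h
  obtain ⟨⟨⟨⟨⟨⟨⟨⟨⟨⟨⟨⟨⟨⟨⟨⟨⟨⟨⟨⟨⟨⟨⟨⟨k1, -⟩, -⟩, -⟩, -⟩, -⟩, -⟩, -⟩, -⟩, -⟩, -⟩, -⟩, -⟩, -⟩, -⟩,
    -⟩, -⟩, -⟩, -⟩, -⟩, -⟩, -⟩, -⟩, -⟩, -⟩ := h
  exact_mod_cast k1

lemma F0_ge_two {D : ℝ} (h0 : 0 ≤ D) (h1 : D < log 2) : 2 * D ≤ F0 D := by
  have := four_thirds_slope h0 h1
  nlinarith [sq_nonneg D]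

/-- A state next to the equality curve, on a tilted path. -/
theorem gband_tilted {g : GBand} (h : gbandOK g = true) {m d H K a c t : ℝ} (hm0 : 0 ≤ m)
    (hm1 : m < 1) (ha : 0 ≤ a) (hc : 0 < c) (ht0 : (g.t0 : ℝ) ≤ t) (ht1 : t ≤ 1)
    (em : m = 1 - t * (1 - (tanh (a + c) + tanh (a - c)) / 2))
    (ed : d = t * ((tanh (a + c) - tanh (a - c)) / 2))
    (eH : H = t * ((ent (tanh (a + c)) + ent (tanh (a - c))) / 2))
    (hρ : (g.rlo : ℝ) * d ≤ H ∧ H ≤ (g.rhi : ℝ) * d) (hH : 0 < H)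
    (hE : H ≤ (ent (m + d) + ent (m - d)) / 2)
    (hK : t * (c * ((tanh (a + c) - tanh (a - c)) / 2)) ≤ K) :
    persp2 (satWeight m) H ≤ K + F0 ((ent (m + d) + ent (m - d)) / 2 - H) := by
  have htp : 0 < t := lt_of_lt_of_le (gbandOK_t0 h) ht0
  rw [ed, eH, mul_left_comm, mul_left_comm (g.rhi : ℝ)] at hρ
  obtain ⟨hb1, hab, hcore⟩ := gband_core h ha hc ht0 ht1 (le_of_mul_le_mul_left hρ.1 htp)
    (le_of_mul_le_mul_left hρ.2 htp)
  set x := tanh (a + c)
  set y := tanh (a - c)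
  set M := (x + y) / 2 with hM
  have hw := satWeight_pos (show m ∈ Ioo (-1 : ℝ) 1 from ⟨by linarith, hm1⟩)
  have hcore' := hcore (satWeight m) ⟨hw, satWeight_le_one m⟩
  rw [← eH] at hcore'
  have he : eCap (H / satWeight m) ∈ Ioc (0 : ℝ) (1 / 4) := eCap_mem (div_pos hH hw)
  have hedge := edge_ge_tangent ha hab hb1 he
  have hα := alphaT_nonneg he.1.le
  have hsub := satWeight_sub_le ht1 em
  have e1 : toCorner t x = m + d := by rw [toCorner, em, ed, hM]; ring
  have e2 : toCorner t y = m - d := by rw [toCorner, em, ed, hM]; ring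
  rw [e1, e2] at hcore'
  have hF := F0_ge_two (show 0 ≤ (ent (m + d) + ent (m - d)) / 2 - H by linarith)
    (by linarith [ent_le_log_two (m + d), ent_le_log_two (m - d)])
  rw [persp2_eq_tangent hw.ne']
  have p1 := mul_le_mul_of_nonneg_left hedge htp.le
  have p2 := mul_le_mul_of_nonneg_left hsub hα
  have eR : t * (rate (eCap (H / satWeight m)) * ((ent x + ent y) / 2))
      = rate (eCap (H / satWeight m)) * H := by rw [eH]; ring
  linarith

/-- A state next to the equality curve, on a symmetric path. -/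
theorem gband_sym {g : GBand} (h : gbandOK g = true) {m b l K : ℝ} (hm0 : 0 ≤ m) (hm1 : m < 1)
    (hb : 0 < b) (hl0 : (g.t0 : ℝ) ≤ l) (hl : l ≤ 1 - m)
    (hρ : (g.rlo : ℝ) * tanh b ≤ ent (tanh b) ∧ ent (tanh b) ≤ (g.rhi : ℝ) * tanh b)
    (hE : l * ent (tanh b) ≤ (ent (m + l * tanh b) + ent (m - l * tanh b)) / 2)
    (hK : l * (b * tanh b) ≤ K) :
    persp2 (satWeight m) (l * ent (tanh b))
      ≤ K + F0 ((ent (m + l * tanh b) + ent (m - l * tanh b)) / 2 - l * ent (tanh b)) := by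
  have hlp : 0 < l := lt_of_lt_of_le (gbandOK_t0 h) hl0
  have eh : (ent (tanh b) + ent (-tanh b)) / 2 = ent (tanh b) := by rw [ent_neg]; ring
  have ed : (tanh b - -tanh b) / 2 = tanh b := by ring
  obtain ⟨-, -, hcore⟩ := gband_core h le_rfl hb hl0 (by linarith : l ≤ 1)
    (by rw [zero_add, zero_sub, tanh_neg, eh, ed]; exact hρ.1)
    (by rw [zero_add, zero_sub, tanh_neg, eh, ed]; exact hρ.2)
  have hw := satWeight_pos (show m ∈ Ioo (-1 : ℝ) 1 from ⟨by linarith, hm1⟩)
  have hH := mul_pos hlp (ent_tanh_pos b)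
  have hcore' := hcore (satWeight m) ⟨hw, satWeight_le_one m⟩
  rw [zero_add, zero_sub, tanh_neg, eh] at hcore'
  rw [show (tanh b + -tanh b) / 2 = 0 by ring, show qFn 0 = 1 by norm_num [qFn, satWeight],
    show toCorner l (tanh b) = 1 - l + l * tanh b by rw [toCorner]; ring,
    show toCorner l (-tanh b) = 1 - l - l * tanh b by rw [toCorner]; ring] at hcore'
  have he : eCap (l * ent (tanh b) / satWeight m) ∈ Ioc (0 : ℝ) (1 / 4) := eCap_mem (div_pos hH hw)
  have hedge := tangent_le_Phi he (ent_tanh_pos b)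
  rw [Phi_ent_tanh hb.le] at hedge
  have hα := alphaT_nonneg he.1.le
  -- the children's entropy decreases towards the corner
  have hmono : ent (1 - l + l * tanh b) + ent (1 - l - l * tanh b)
      ≤ ent (m + l * tanh b) + ent (m - l * tanh b) := by
    have tb0 : 0 ≤ tanh b := tanh_nonneg' hb.le
    have hlt : l * tanh b ≤ l := mul_le_of_le_one_right hlp.le (tanh_lt_one b).le
    have hlt0 : 0 ≤ l * tanh b := mul_nonneg hlp.le tb0
    have mem : ∀ z : ℝ, -(1 - l) ≤ z → z ≤ 1 - l →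
        z + l * tanh b ∈ Icc (-1 : ℝ) 1 ∧ z - l * tanh b ∈ Icc (-1 : ℝ) 1 :=
      fun z z1 z2 => ⟨⟨by linarith, by linarith⟩, ⟨by linarith, by linarith⟩⟩
    obtain ⟨p, q, hp, hq, hpq, he⟩ := exists_weights (x := -(1 - l)) (y := 1 - l) (z := m)
      (by linarith) (by linarith)
    obtain ⟨m1, m2⟩ := mem (-(1 - l)) le_rfl (by linarith)
    obtain ⟨n1, n2⟩ := mem (1 - l) (by linarith) le_rfl
    have c1 := concaveOn_ent.2 m1 n1 hp hq hpq
    have c2 := concaveOn_ent.2 m2 n2 hp hq hpq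
    simp only [smul_eq_mul] at c1 c2
    rw [show p * (-(1 - l) + l * tanh b) + q * (1 - l + l * tanh b) = m + l * tanh b by
      rw [← he]; linear_combination (l * tanh b) * hpq] at c1
    rw [show p * (-(1 - l) - l * tanh b) + q * (1 - l - l * tanh b) = m - l * tanh b by
      rw [← he]; linear_combination (-(l * tanh b)) * hpq] at c2
    rw [show -(1 - l) + l * tanh b = -(1 - l - l * tanh b) by ring, ent_neg] at c1
    rw [show -(1 - l) - l * tanh b = -(1 - l + l * tanh b) by ring, ent_neg] at c2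
    obtain rfl : q = 1 - p := by linarith
    linarith
  have hF := F0_ge_two (show 0 ≤ (ent (m + l * tanh b) + ent (m - l * tanh b)) / 2
      - l * ent (tanh b) by linarith)
    (by linarith [ent_le_log_two (m + l * tanh b), ent_le_log_two (m - l * tanh b)])
  rw [persp2_eq_tangent hw.ne']
  have p1 := mul_le_mul_of_nonneg_left hedge hlp.le
  have p2 := mul_le_mul_of_nonneg_left
    (show satWeight m - l ≤ 1 - l by linarith [satWeight_le_one m]) hα
  linarith

/-- **The step in a band.** -/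
theorem BandData.step {B : BandData} (h : B.ok = true) {m d H K b l : ℝ} (hm0 : 0 ≤ m)
    (hd : 0 < d) (hmd : m + d < 1) (hb : 0 < b) (hl : satWeight m / 2 ≤ l)
    (ed : d = l * tanh b) (eH : H = l * ent (tanh b))
    (hlo : (B.rlo : ℝ) * tanh b ≤ ent (tanh b)) (hhi : ent (tanh b) ≤ (B.rhi : ℝ) * tanh b)
    (hE : H ≤ (ent (m + d) + ent (m - d)) / 2) (hK : Edge m d H K)
    (hcen : l * (b * tanh b) ≤ K)
    (htilt : 1 - m < l → ∃ a c t, 0 ≤ a ∧ 0 < c ∧ 0 < t ∧ t ≤ 1 ∧
      m = 1 - t * (1 - (tanh (a + c) + tanh (a - c)) / 2) ∧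
      d = t * ((tanh (a + c) - tanh (a - c)) / 2) ∧
      H = t * ((ent (tanh (a + c)) + ent (tanh (a - c))) / 2) ∧
      t * (c * ((tanh (a + c) - tanh (a - c)) / 2)) ≤ K) :
    persp2 (satWeight m) H ≤ K + max (F0 ((ent (m + d) + ent (m - d)) / 2 - H))
      (persp2 ((satWeight (m + d) + satWeight (m - d)) / 2) H) := by
  simp only [BandData.ok, Bool.and_eq_true, decide_eq_true_eq] at h
  obtain ⟨⟨⟨⟨⟨⟨⟨⟨hv1, hu1⟩, hr0⟩, -⟩, hv⟩, hu⟩, hP⟩, hT⟩, hG⟩ := h
  have hm1 : m < 1 := by linarith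
  have hw := satWeight_pos (show m ∈ Ioo (-1 : ℝ) 1 from ⟨by linarith, hm1⟩)
  have hlp : 0 < l := lt_of_lt_of_le (by linarith) hl
  have hv1' : 0 < B.Ev := lt_of_lt_of_le one_pos hv1
  have hu1' : 0 < B.Eu := lt_trans one_pos hu1
  have tv : (tanhQ B.Ev : ℝ) ≤ tanh b := by
    rw [tanhQ_eq hv1']
    refine strictMono_tanh'.monotone (le_of_slope hb (pt_nonneg hv1) hhi ?_)
    have h' := (Rat.cast_le (K := ℝ)).2 hv
    push_cast [tanhQ_eq hv1'] at h'
    exact h'.trans (eLB_le hv1).1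
  have hptu : 0 < pt B.Eu := div_pos (log_pos (by exact_mod_cast hu1)) (by norm_num)
  have tu : tanh b ≤ (tanhQ B.Eu : ℝ) := by
    rw [tanhQ_eq hu1']
    refine strictMono_tanh'.monotone (le_of_slope hptu hb.le ?_ hlo)
    have h' := (Rat.cast_le (K := ℝ)).2 hu
    push_cast [tanhQ_eq hu1'] at h'
    exact (eLB_le hu1.le).2.trans h' 
  have rloH : (B.rlo : ℝ) * d ≤ H := by
    rw [ed, eH, mul_left_comm]; exact mul_le_mul_of_nonneg_left hlo hlp.le
  have rhiH : H ≤ (B.rhi : ℝ) * d := by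
    rw [ed, eH, mul_left_comm]; exact mul_le_mul_of_nonneg_left hhi hlp.le
  have hH : 0 < H := by rw [eH]; exact mul_pos hlp (ent_tanh_pos b)
  rcases le_total d ((B.dP : ℝ) * satWeight m) with hdP | hdP
  · refine (pbandOK_step B.P _ hP hm0 hm1 ?_ hdP rloH rhiH hK).trans
      (add_le_add le_rfl (le_max_right _ _))
    push_cast
    rw [ed]
    calc (tanhQ B.Ev : ℝ) / 2 * satWeight m ≤ tanh b / 2 * satWeight m := by gcongr
      _ ≤ l * tanh b := by
        have := mul_le_mul_of_nonneg_right hl (tanh_nonneg' hb.le); linarith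
  refine le_trans ?_ (add_le_add le_rfl (le_max_left _ _))
  by_cases hxs : (satLimit : ℝ) * satWeight m ≤ H
  · refine (persp2_nonpos hw hxs).trans (add_nonneg hK.nonneg ?_)
    exact Phi_nonneg _
  push Not at hxs
  have memT : d ≤ (B.dT : ℝ) →
      (∀ q ∈ B.tband.cut, H ≤ ((q.1 : ℚ) : ℝ) + ((q.2 : ℚ) : ℝ) * d) → B.tband.Mem m d H := by
    intro h1 h2
    refine ⟨rloH, ?_, ?_, h2, hxs.le, hdP, h1⟩
    · simp [BandData.tband, hH.le]
    · intro r hr
      simp only [BandData.tband, Option.mem_def, Option.some.injEq] at hr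
      subst hr
      exact rhiH
  have useT : B.tband.Mem m d H →
      persp2 (satWeight m) H ≤ K + F0 ((ent (m + d) + ent (m - d)) / 2 - H) := fun hmem =>
    slicesOK_step B.T 0 hT (by simpa using hm0) hm0 hm1 hmem hd.le hmd hH hE hK
  cases hcase : B.G with
  | none =>
    rw [hcase] at hG
    simp only [decide_eq_true_eq] at hG
    -- `d ≤ tanh b`, as `H ≤ ent d`
    have hdt : d ≤ tanh b := by
      refine half_le_tanh (ρ := ent (tanh b) / tanh b) hb (by linarith) ?_ ?_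
      · rw [div_mul_cancel₀ _ (ne_of_gt (by simpa using strictMono_tanh' hb))]
      · have e : ent (tanh b) / tanh b * d = H := by
          rw [ed, eH]
          have : tanh b ≠ 0 := ne_of_gt (by simpa using strictMono_tanh' hb)
          field_simp
        rw [e]
        refine hE.trans ?_
        have c := concaveOn_ent.2 (show m + d ∈ Icc (-1 : ℝ) 1 from ⟨by linarith, by linarith⟩)
          (show -(m - d) ∈ Icc (-1 : ℝ) 1 from ⟨by linarith, by linarith⟩)
          (show (0 : ℝ) ≤ 1 / 2 by norm_num) (show (0 : ℝ) ≤ 1 / 2 by norm_num) (by norm_num)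
        simp only [smul_eq_mul, ent_neg] at c
        rw [show 1 / 2 * (m + d) + 1 / 2 * -(m - d) = d by ring] at c
        linarith
    refine useT (memT ((hdt.trans tu).trans (by exact_mod_cast hG)) fun q hq => ?_)
    simp [BandData.tband, hcase] at hq
  | some gE =>
    obtain ⟨g, Em⟩ := gE
    rw [hcase] at hG
    simp only [Bool.and_eq_true, decide_eq_true_eq] at hG
    obtain ⟨⟨⟨⟨⟨hg, erlo⟩, erhi⟩, hdT⟩, hEm⟩, hc0⟩ := hG
    by_cases hT' : d ≤ (B.dT : ℝ) ∧
        H ≤ ((cutOf g.t0 Em).1 : ℝ) + ((cutOf g.t0 Em).2 : ℝ) * d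
    · refine useT (memT hT'.1 fun q hq => ?_)
      simp only [BandData.tband, hcase, Option.map_some, Option.mem_def, Option.some.injEq] at hq
      subst hq
      exact hT'.2
    set c0 := ((logUB (1 + 1 / Em) + logUB Em / 2 : ℚ) : ℝ) with hc0d
    have hc0' : 0 ≤ c0 := by rw [hc0d]; exact_mod_cast hc0
    have hcut : ((cutOf g.t0 Em).1 : ℝ) + ((cutOf g.t0 Em).2 : ℝ) * d
        = (g.t0 : ℝ) * c0 - ((logLB Em / 2 : ℚ) : ℝ) * d := by
      rw [hc0d, cutOf]; push_cast; ring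
    rw [hcut] at hT'
    -- a weight `s` of an atom of half difference `x` is beyond `t0`
    have beyond : ∀ s x : ℝ, 0 < s → 0 ≤ x → x ≤ tanh b → d = s * x → H ≤ s * ent x →
        (g.t0 : ℝ) ≤ s := by
      intro s x hs hx0 hxb hds hHs
      by_contra hc
      push Not at hc
      apply hT'
      constructor
      · refine le_trans ?_ (show ((g.t0 * tanhQ B.Eu : ℚ) : ℝ) ≤ (B.dT : ℝ) by exact_mod_cast hdT)
        rw [hds]; push_cast
        exact mul_le_mul hc.le (hxb.trans tu) hx0 (le_trans hs.le hc.le)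
      · have hl := mul_le_mul_of_nonneg_left
          (cut_line hEm hx0 (hxb.trans (tanh_lt_one b).le)) hs.le
        rw [← hc0d] at hl
        have := mul_le_mul_of_nonneg_right hc.le hc0'
        rw [hds]
        linarith
    rw [← erlo] at hlo rloH
    rw [← erhi] at hhi rhiH
    rcases le_or_gt l (1 - m) with hsym | hti
    · subst ed eH
      exact gband_sym hg hm0 hm1 hb
        (beyond l (tanh b) hlp (tanh_nonneg' hb.le) le_rfl rfl le_rfl) hsym ⟨hlo, hhi⟩ hE hcen
    · obtain ⟨a, c, t, ha, hc, ht, ht1, em, ed', eH', hKt⟩ := htilt hti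
      set x := (tanh (a + c) - tanh (a - c)) / 2 with hx
      have hx0 : 0 ≤ x := by
        have := (strictMono_tanh' (show a - c < a + c by linarith)).le
        rw [hx]; linarith
      have hx1 : x ≤ 1 := by
        rw [hx]; linarith [tanh_lt_one (a + c), neg_one_lt_tanh (a - c)]
      have hxH : H ≤ t * ent x := by
        rw [eH']; exact mul_le_mul_of_nonneg_left (atom_h_le a c) ht.le
      have hxb : x ≤ tanh b := by
        have tb : tanh b ≠ 0 := ne_of_gt (by simpa using strictMono_tanh' hb)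
        refine half_le_tanh (ρ := ent (tanh b) / tanh b) hb hx1 ?_ ?_
        · rw [div_mul_cancel₀ _ tb]
        · refine le_of_mul_le_mul_left (le_trans (le_of_eq ?_) hxH) ht
          rw [eH, ← mul_assoc, mul_comm t, mul_assoc, ← ed', ed]
          field_simp
      exact gband_tilted hg hm0 hm1 ha hc (beyond t x ht hx0 hxb ed' hxH) ht1 em ed' eH'
        ⟨rloH, rhiH⟩ hH hE hKt

/-- **The step for small `b`.** -/
theorem small_step {E0 rlo kap dT : ℚ} {T : List Slice} (h : smallOK E0 rlo kap dT T = true)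
    {m d H K b l : ℝ} (hm0 : 0 ≤ m) (hd : 0 < d) (hmd : m + d < 1) (hb : 0 < b)
    (hl : 27 / 50 * satWeight m ≤ l) (ed : d = l * tanh b) (eH : H = l * ent (tanh b))
    (hlo : (rlo : ℝ) * tanh b ≤ ent (tanh b))
    (hE : H ≤ (ent (m + d) + ent (m - d)) / 2) (hK : Edge m d H K) :
    persp2 (satWeight m) H ≤ K + F0 ((ent (m + d) + ent (m - d)) / 2 - H) := by
  simp only [smallOK, Bool.and_eq_true, decide_eq_true_eq] at h
  obtain ⟨⟨⟨⟨⟨⟨h1, -⟩, hu⟩, hk⟩, hk0⟩, hdT⟩, hT⟩ := h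
  have hm1 : m < 1 := by linarith
  have hw := satWeight_pos (show m ∈ Ioo (-1 : ℝ) 1 from ⟨by linarith, hm1⟩)
  have hlp : 0 < l := lt_of_lt_of_le (by linarith) hl
  have h0 : 0 < E0 := lt_trans one_pos h1
  have hpt : 0 < pt E0 := div_pos (log_pos (by exact_mod_cast h1)) (by norm_num)
  have hbE : b ≤ pt E0 := by
    refine le_of_slope hpt hb.le ?_ hlo
    have h' := (Rat.cast_le (K := ℝ)).2 hu
    push_cast [tanhQ_eq h0] at h'
    exact (eLB_le h1.le).2.trans h' 
  have hH : 0 < H := by rw [eH]; exact mul_pos hlp (ent_tanh_pos b)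
  by_cases hxs : (satLimit : ℝ) * satWeight m ≤ H
  · exact (persp2_nonpos hw hxs).trans (add_nonneg hK.nonneg (Phi_nonneg _))
  push Not at hxs
  refine slicesOK_step T 0 hT (by simpa using hm0) hm0 hm1 ⟨?_, ?_, ?_, ?_, hxs.le, ?_, ?_⟩ hd.le
    hmd hH hE hK
  · rw [ed, eH, mul_left_comm]; exact mul_le_mul_of_nonneg_left hlo hlp.le
  · have he : (eLB E0 : ℝ) ≤ ent (tanh b) :=
      (eLB_le h1.le).1.trans (ent_tanh_le_ent_tanh hb.le hbE)
    have hk' := (Rat.cast_le (K := ℝ)).2 hk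
    push_cast at hk'
    calc (kap : ℝ) * satWeight m ≤ 27 / 50 * ent (tanh b) * satWeight m := by
          refine mul_le_mul_of_nonneg_right (hk'.trans ?_) hw.le
          linarith
      _ = 27 / 50 * satWeight m * ent (tanh b) := by ring
      _ ≤ H := by rw [eH]; exact mul_le_mul_of_nonneg_right hl (ent_tanh_pos b).le
  · intro r hr; simp at hr
  · intro q hq; simp at hq
  · simp [hd.le]
  · -- `d ≤ tanh b`
    have tb : 0 < tanh b := by simpa using strictMono_tanh' hb
    refine le_trans ?_ (show (tanhQ E0 : ℝ) ≤ (dT : ℝ) by exact_mod_cast hdT)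
    rw [tanhQ_eq h0]
    refine le_trans ?_ (strictMono_tanh'.monotone hbE)
    refine half_le_tanh (ρ := ent (tanh b) / tanh b) hb (by linarith)
      (div_mul_cancel₀ _ tb.ne').symm ?_
    have e : ent (tanh b) / tanh b * d = H := by rw [ed, eH]; field_simp
    rw [e]
    refine hE.trans ?_
    have c := concaveOn_ent.2 (show m + d ∈ Icc (-1 : ℝ) 1 from ⟨by linarith, by linarith⟩)
      (show -(m - d) ∈ Icc (-1 : ℝ) 1 from ⟨by linarith, by linarith⟩)
      (show (0 : ℝ) ≤ 1 / 2 by norm_num) (show (0 : ℝ) ≤ 1 / 2 by norm_num) (by norm_num)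
    simp only [smul_eq_mul, ent_neg] at c
    rw [show 1 / 2 * (m + d) + 1 / 2 * -(m - d) = d by ring] at c
    linarith

end Vale.Agent.P322.Check
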