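import Vale.Agent.P322.Check.Bounds

/-!
# Courtade–Kumar: the lower bound of the step margin is concave in the state

With a certificate, a linear lower bound of the children and a linear upper bound of the weight,
the margin of the saturation step is concave in `(m, d, H)`, so that it suffices to test corners.
-/

namespace Vale.Agent.P322.Check

open Real Set

/-- `satWeight` over `ℚ`. -/
def wQ (m : ℚ) : ℚ := (1 - m ^ 2) * (8 + m ^ 2) / 8

/-- The tangent of `wQ` at `mc`. -/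
def wTanQ (mc m : ℚ) : ℚ := wQ mc - (7 / 4 * mc + mc ^ 3 / 2) * (m - mc)

/-- The tangent of `satWeight` at `mc`. -/
noncomputable def wTan (mc m : ℝ) : ℝ := satWeight mc - (7 / 4 * mc + mc ^ 3 / 2) * (m - mc)

lemma cast_wQ (m : ℚ) : ((wQ m : ℚ) : ℝ) = satWeight (m : ℝ) := by
  unfold wQ satWeight; push_cast; ring

lemma cast_wTanQ (mc m : ℚ) : ((wTanQ mc m : ℚ) : ℝ) = wTan (mc : ℝ) (m : ℝ) := by
  unfold wTanQ wTan; push_cast [cast_wQ]; ring

lemma satWeight_le_wTan (mc m : ℝ) : satWeight m ≤ wTan mc m := by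
  rw [← sub_nonneg]
  have e : wTan mc m - satWeight m
      = (m - mc) ^ 2 * (7 / 8 + ((m + mc) ^ 2 + 2 * mc ^ 2) / 8) := by
    unfold wTan satWeight; ring
  rw [e]; positivity

lemma chord_le_satWeight {a b m : ℝ} (ha : 0 ≤ a) (h1 : a ≤ m) (h2 : m ≤ b) :
    satWeight a * (b - m) + satWeight b * (m - a) ≤ satWeight m * (b - a) := by
  rw [← sub_nonneg]
  have e : satWeight m * (b - a) - (satWeight a * (b - m) + satWeight b * (m - a))
      = (m - a) * (b - m) * (b - a)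
        * (7 / 8 + (m ^ 2 + m * a + m * b + a ^ 2 + a * b + b ^ 2) / 8) := by
    unfold satWeight; ring
  rw [e]
  have hm : 0 ≤ m := ha.trans h1
  have hb : 0 ≤ b := hm.trans h2
  exact mul_nonneg (mul_nonneg (mul_nonneg (sub_nonneg.2 h1) (sub_nonneg.2 h2))
    (by linarith)) (by positivity)

/-- Coefficients of the lower bound. -/
structure Par where
  /-- the certificate -/
  cert : Cert
  /-- slope of the children's bound -/
  c : ℚ
  /-- value at `0` of the children's bound -/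
  c0 : ℚ
  /-- contact point of the weight tangent -/
  mc : ℚ

/-- The lower bound of the margin. -/
noncomputable def margin (p : Par) (m d H : ℝ) : ℝ :=
  (p.cert.lam : ℝ) * d - (p.cert.mu : ℝ) * (H + (p.cert.nu : ℝ) * (1 - m))
    + (p.c : ℝ) * ((ent (m + d) + ent (m - d)) / 2 - H) + (p.c0 : ℝ)
    - persp2 (wTan (p.mc : ℝ) m) H

/-- A state in the domain with nonnegative margin. -/
structure Good (p : Par) (m d H : ℝ) : Prop where
  /-- first child -/
  hp : m + d ∈ Icc (-1 : ℝ) 1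
  /-- second child -/
  hq : m - d ∈ Icc (-1 : ℝ) 1
  /-- entropy -/
  hH : 0 < H
  /-- weight -/
  hw : 0 < wTan (p.mc : ℝ) m
  /-- margin -/
  hF : 0 ≤ margin p m d H

theorem Good.combine {p : Par} (hc : 0 ≤ p.c) {m0 d0 H0 m1 d1 H1 a b : ℝ}
    (h0 : Good p m0 d0 H0) (h1 : Good p m1 d1 H1) (ha : 0 ≤ a) (hb : 0 ≤ b) (hab : a + b = 1) :
    Good p (a * m0 + b * m1) (a * d0 + b * d1) (a * H0 + b * H1) := by
  have ep : a * m0 + b * m1 + (a * d0 + b * d1) = a * (m0 + d0) + b * (m1 + d1) := by ring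
  have eq : a * m0 + b * m1 - (a * d0 + b * d1) = a * (m0 - d0) + b * (m1 - d1) := by ring
  have hH : 0 < a * H0 + b * H1 := convex_Ioi (0 : ℝ) h0.hH h1.hH ha hb hab
  have ew : wTan (p.mc : ℝ) (a * m0 + b * m1)
      = a * wTan (p.mc : ℝ) m0 + b * wTan (p.mc : ℝ) m1 := by
    rw [show b = 1 - a by linarith]; unfold wTan; ring
  have hw : 0 < a * wTan (p.mc : ℝ) m0 + b * wTan (p.mc : ℝ) m1 :=
    convex_Ioi (0 : ℝ) h0.hw h1.hw ha hb hab
  refine ⟨ep ▸ convex_Icc (-1 : ℝ) 1 h0.hp h1.hp ha hb hab,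
    eq ▸ convex_Icc (-1 : ℝ) 1 h0.hq h1.hq ha hb hab, hH, ew ▸ hw, ?_⟩
  have c1 := concaveOn_ent.2 h0.hp h1.hp ha hb hab
  have c2 := concaveOn_ent.2 h0.hq h1.hq ha hb hab
  have c3 := persp2_convex ha hb h0.hw h1.hw h0.hH h1.hH hw hH
  simp only [smul_eq_mul] at c1 c2
  have hcR : (0 : ℝ) ≤ (p.c : ℝ) := by exact_mod_cast hc
  have c4 := mul_le_mul_of_nonneg_left (add_le_add c1 c2) hcR
  have key : a * margin p m0 d0 H0 + b * margin p m1 d1 H1
      ≤ margin p (a * m0 + b * m1) (a * d0 + b * d1) (a * H0 + b * H1) := by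
    obtain rfl : b = 1 - a := by linarith
    simp only [margin, ep, eq, ew]
    nlinarith
  exact le_trans (add_nonneg (mul_nonneg ha h0.hF) (mul_nonneg hb h1.hF)) key

/-- Shrinking towards the corner `(1, 0, 0)`. -/
theorem Good.cone {p : Par} (hc : 0 ≤ p.c) (hc0 : p.c0 = 0) (hmc : p.mc = 1) {m d H θ : ℝ}
    (h : Good p m d H) (h0 : 0 < θ) (h1 : θ ≤ 1) :
    Good p (1 - θ * (1 - m)) (θ * d) (θ * H) := by
  have top : (1 : ℝ) ∈ Icc (-1 : ℝ) 1 := ⟨by norm_num, le_rfl⟩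
  have ep : 1 - θ * (1 - m) + θ * d = θ * (m + d) + (1 - θ) * 1 := by ring
  have eq : 1 - θ * (1 - m) - θ * d = θ * (m - d) + (1 - θ) * 1 := by ring
  have ew : wTan (p.mc : ℝ) (1 - θ * (1 - m)) = θ * wTan (p.mc : ℝ) m := by
    simp only [hmc, Rat.cast_one, wTan, satWeight]; ring
  have hb : 0 ≤ 1 - θ := by linarith
  refine ⟨ep ▸ convex_Icc (-1 : ℝ) 1 h.hp top h0.le hb (by ring),
    eq ▸ convex_Icc (-1 : ℝ) 1 h.hq top h0.le hb (by ring), mul_pos h0 h.hH,
    ew ▸ mul_pos h0 h.hw, ?_⟩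
  have c1 := concaveOn_ent.2 h.hp top h0.le hb (by ring)
  have c2 := concaveOn_ent.2 h.hq top h0.le hb (by ring)
  simp only [smul_eq_mul, ent_one, mul_zero, add_zero] at c1 c2
  have c3 : persp2 (θ * wTan (p.mc : ℝ) m) (θ * H) = θ * persp2 (wTan (p.mc : ℝ) m) H := by
    rw [persp2, persp2, mul_div_mul_left _ _ h0.ne']; ring
  have hcR : (0 : ℝ) ≤ (p.c : ℝ) := by exact_mod_cast hc
  have c4 := mul_le_mul_of_nonneg_left (add_le_add c1 c2) hcR
  have hF := mul_nonneg h0.le h.hF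
  simp only [margin, ep, eq, ew, c3, hc0, Rat.cast_zero] at hF ⊢
  nlinarith

/-- The rational test at a corner. -/
def cornerOK (p : Par) (m d H E : ℚ) : Bool :=
  decide (-1 ≤ m + d) && decide (m + d ≤ 1) && decide (-1 ≤ m - d) && decide (m - d ≤ 1) &&
    decide (0 < H) && decide (0 < wTanQ p.mc m) && decide (0 ≤ p.c) &&
    phi2OK (H / wTanQ p.mc m) E &&
    decide (0 ≤ p.cert.lam * d - p.cert.mu * (H + p.cert.nu * (1 - m))
      + p.c * ((entLB (m + d) + entLB (m - d)) / 2 - H) + p.c0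
      - wTanQ p.mc m * phi2UB (H / wTanQ p.mc m) E)

theorem cornerOK_good {p : Par} {m d H E : ℚ} (h : cornerOK p m d H E = true) :
    Good p (m : ℝ) (d : ℝ) (H : ℝ) := by
  simp only [cornerOK, Bool.and_eq_true, decide_eq_true_eq] at h
  obtain ⟨⟨⟨⟨⟨⟨⟨⟨h1, h2⟩, h3⟩, h4⟩, h5⟩, h6⟩, h7⟩, h8⟩, h9⟩ := h
  have hwR : (0 : ℝ) < wTan (p.mc : ℝ) (m : ℝ) := by rw [← cast_wTanQ]; exact_mod_cast h6
  refine ⟨⟨by exact_mod_cast h1, by exact_mod_cast h2⟩, ⟨by exact_mod_cast h3, by exact_mod_cast h4⟩,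
    by exact_mod_cast h5, hwR, ?_⟩
  have a := entLB_le_ent h1 h2
  have b := entLB_le_ent h3 h4
  have c := Phi2_le_phi2UB h8
  push_cast [cast_wTanQ] at a b c
  have hcR : (0 : ℝ) ≤ (p.c : ℝ) := by exact_mod_cast h7
  have h9' := (Rat.cast_le (K := ℝ)).2 h9
  push_cast [cast_wTanQ] at h9'
  have c' := mul_le_mul_of_nonneg_left c hwR.le
  have ab := mul_le_mul_of_nonneg_left (add_le_add a b) hcR
  rw [margin, persp2]
  linarith

end Vale.Agent.P322.Check
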