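import Vale.Agent.P322.Check.PBand
import Vale.Agent.P322.Scalar.Path
import Vale.Agent.P322.Scalar.NStep

/-!
# Courtade–Kumar: the states next to the equality curve

An atom is given by `r = (1 + y) / 2`, `s = (1 - x) / 2`. In a band of slopes the atoms lie in the
quadrilateral `(r2, r2), (2 r2, 0), (R, 0), (r1, r1)`. The children's term is at least
`(1 - t) / (1 - t0)` times its value at `t0`, which is convex in `r` and in `s`, so that tangent
bounds and the four vertices decide.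
-/

namespace Vale.Agent.P322.Check

open Real Set

/-- The children's term of one leg. -/
noncomputable def psiFn (t p : ℝ) : ℝ := ent (1 - 2 * t * p) - t * ent (1 - 2 * p)

/-- Its slope in `p`. -/
noncomputable def psiSlope (t p : ℝ) : ℝ := t * (log ((1 - t * p) / (t * p)) - log ((1 - p) / p))

/-- The value at `t = 0` of the tangent of `satWeight` at `M`, measured from the corner. -/
noncomputable def qFn (M : ℝ) : ℝ := satWeight M + (1 - M) * -(7 / 4 * M + M ^ 3 / 2)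

/-- Parameters. -/
structure GBand where
  /-- lower slope of the entropy -/
  rlo : ℚ
  /-- upper slope of the entropy -/
  rhi : ℚ
  /-- smallest weight of the atom -/
  t0 : ℚ
  /-- vertices -/
  r2 : ℚ
  /-- vertices -/
  r1 : ℚ
  /-- vertices -/
  R : ℚ
  /-- contact point in `r` -/
  rc : ℚ
  /-- contact point in `s` -/
  sc : ℚ
  /-- hint for the tangent value -/
  Ea : ℚ

/-- A lower bound of the tangent line of `psiFn t` at `p0`, at `p`. -/
def psiLin (t p0 p : ℚ) : ℚ :=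
  entLB (1 - 2 * t * p0) - t * entUB (1 - 2 * p0) +
    min (t * (logLB ((1 - t * p0) / (t * p0)) - logUB ((1 - p0) / p0)) * (p - p0))
      (t * (logUB ((1 - t * p0) / (t * p0)) - logLB ((1 - p0) / p0)) * (p - p0))

/-- `qFn` over `ℚ`. -/
def qQ (M : ℚ) : ℚ := wQ M + (1 - M) * -(7 / 4 * M + M ^ 3 / 2)

/-- Test at a vertex. -/
def gvertOK (g : GBand) (r s : ℚ) : Bool :=
  decide ((1 - g.t0) * alphaUB g.Ea * (1 + (qQ g.R - 1) * (r - s) / g.R)
    ≤ psiLin g.t0 (1 - g.rc) (1 - r) + psiLin g.t0 g.sc s)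

/-- The test of a band. -/
def gbandOK (g : GBand) : Bool :=
  decide (0 < g.t0) && decide (g.t0 < 1) && decide (0 < g.rlo) && decide (g.rhi ≤ 69 / 100) &&
  decide (0 < g.r2) && decide (g.r2 ≤ g.r1) && decide (2 * g.r2 ≤ g.R) && decide (g.R < 1 / 2) &&
  decide (g.r1 ≤ g.R) && decide (2 * g.r1 ≤ 1 - 762 / 1000) && decide (g.R ≤ 1 - 762 / 1000) &&
  decide (entUB (1 - 2 * g.r2) ≤ g.rlo * (1 - 2 * g.r2)) &&
  decide (g.rhi * (1 - 2 * g.r1) ≤ entLB (1 - 2 * g.r1)) &&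
  decide (2 * g.rhi * (1 - g.R) ≤ entLB (1 - 2 * g.R)) &&
  decide (0 < g.rc) && decide (g.rc < 1) && decide (0 < g.sc) && decide (g.sc < 1) &&
  alphaOK g.Ea && decide (eUB g.Ea ≤ 1 / 4) &&
  decide (eUB g.Ea ≤ g.t0 * g.rlo * (1 - max (2 * g.r1) g.R)) &&
  gvertOK g g.r2 g.r2 && gvertOK g (2 * g.r2) 0 && gvertOK g g.R 0 && gvertOK g g.r1 g.r1

/-! ### Facts -/

lemma hasDerivAt_psiFn {t p : ℝ} (ht : t ∈ Ioc (0 : ℝ) 1) (hp : p ∈ Ioo (0 : ℝ) 1) :
    HasDerivAt (psiFn t) (psiSlope t p) p := by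
  have a : 0 < t * p := mul_pos ht.1 hp.1
  have b : t * p ≤ p := mul_le_of_le_one_left hp.1.le ht.2
  have h1 := (Skel.hasDerivAt_hbin (x := 1 - 2 * t * p) (by linarith [hp.2]) (by linarith)).comp p
    (((hasDerivAt_id' p).const_mul (2 * t)).const_sub 1)
  have h2 := ((Skel.hasDerivAt_hbin (x := 1 - 2 * p) (by linarith [hp.2]) (by linarith [hp.1])).comp p
    (((hasDerivAt_id' p).const_mul (2 : ℝ)).const_sub 1)).const_mul t
  refine (h1.sub h2).congr_deriv ?_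
  rw [artanh_eq_half_log ⟨by linarith [hp.2], by linarith⟩,
    artanh_eq_half_log ⟨by linarith [hp.2], by linarith [hp.1]⟩, psiSlope,
    show (1 + (1 - 2 * t * p)) / (1 - (1 - 2 * t * p)) = (1 - t * p) / (t * p) by
      field_simp; ring,
    show (1 + (1 - 2 * p)) / (1 - (1 - 2 * p)) = (1 - p) / p by
      have := hp.1; field_simp; ring]
  ring

lemma psi_tangent {t p0 p : ℝ} (ht : t ∈ Ioc (0 : ℝ) 1) (h0 : p0 ∈ Ioo (0 : ℝ) 1)
    (hp : p ∈ Ioo (0 : ℝ) 1) : psiFn t p0 + psiSlope t p0 * (p - p0) ≤ psiFn t p := by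
  have hc : ConvexOn ℝ (Ioo (0 : ℝ) 1) (psiFn t) := by
    refine MonotoneOn.convexOn_of_deriv (convex_Ioo _ _)
      (fun x hx => (hasDerivAt_psiFn ht hx).continuousAt.continuousWithinAt)
      (fun x hx => (hasDerivAt_psiFn ht (interior_subset hx)).differentiableAt.differentiableWithinAt)
      ?_
    rw [interior_Ioo]
    intro x hx y hy hxy
    rw [(hasDerivAt_psiFn ht hx).deriv, (hasDerivAt_psiFn ht hy).deriv]
    have key : ∀ z ∈ Ioo (0 : ℝ) 1, psiSlope t z = t * (log ((1 - t * z) / (1 - z)) - log t) := by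
      intro z hz
      have z1 : t * z < 1 := lt_of_le_of_lt (mul_le_of_le_one_left hz.1.le ht.2) hz.2
      rw [psiSlope, log_div (by linarith) (mul_pos ht.1 hz.1).ne', log_mul ht.1.ne' hz.1.ne',
        log_div (by linarith [hz.2]) hz.1.ne', log_div (by linarith) (by linarith [hz.2])]
      ring
    rw [key x hx, key y hy]
    have x1 : 0 < 1 - x := by linarith [hx.2]
    have y1 : 0 < 1 - y := by linarith [hy.2]
    refine mul_le_mul_of_nonneg_left (sub_le_sub_right (log_le_log ?_ ?_) _) ht.1.le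
    · exact div_pos (by nlinarith [hx.1, ht.2]) x1
    · rw [div_le_div_iff₀ x1 y1]; nlinarith [ht.2]
  rcases lt_trichotomy p p0 with h | h | h
  · have := hc.slope_le_of_hasDerivAt hp h0 h (hasDerivAt_psiFn ht h0)
    rw [slope_def_field, div_le_iff₀ (sub_pos.2 h)] at this
    linarith
  · subst h; simp
  · have := hc.le_slope_of_hasDerivAt h0 hp h (hasDerivAt_psiFn ht h0)
    rw [slope_def_field, le_div_iff₀ (sub_pos.2 h)] at this
    linarith

lemma psiLin_le {t p0 p : ℚ} (ht0 : 0 < t) (ht1 : t ≤ 1) (h0 : 0 < p0) (h1 : p0 < 1) :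
    (psiLin t p0 p : ℝ) ≤ psiFn (t : ℝ) p0 + psiSlope (t : ℝ) p0 * ((p : ℝ) - p0) := by
  have htR : (0 : ℝ) < t := by exact_mod_cast ht0
  have a0 : 0 < t * p0 := mul_pos ht0 h0
  have a1 : t * p0 ≤ p0 := mul_le_of_le_one_left h0.le ht1
  have e1 := entLB_le_ent (x := 1 - 2 * t * p0) (by linarith) (by linarith)
  have e2 := ent_le_entUB (x := 1 - 2 * p0) (by linarith) (by linarith)
  have q1 : 0 < (1 - t * p0) / (t * p0) := div_pos (by linarith) a0
  have q2 : 0 < (1 - p0) / p0 := div_pos (by linarith) h0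
  have u1 := logLB_le_log q1
  have u2 := log_le_logUB q1
  have v1 := logLB_le_log q2
  have v2 := log_le_logUB q2
  have e2' := mul_le_mul_of_nonneg_left e2 htR.le
  push_cast at e1 e2' u1 u2 v1 v2
  rw [psiLin, psiFn, psiSlope]
  push_cast
  refine add_le_add (by linarith) ?_
  rcases le_total 0 ((p : ℝ) - p0) with h | h
  · refine (min_le_left _ _).trans (mul_le_mul_of_nonneg_right ?_ h)
    gcongr
  · refine (min_le_right _ _).trans (mul_le_mul_of_nonpos_right ?_ h)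
    gcongr

lemma psi_scale {t t0 p : ℝ} (h0 : 0 < t0) (h1 : t0 ≤ t) (h2 : t ≤ 1) (h3 : t0 < 1)
    (hp : p ∈ Ioo (0 : ℝ) 1) : (1 - t) / (1 - t0) * psiFn t0 p ≤ psiFn t p := by
  set a := (1 - t) / (1 - t0) with ha
  have hd : (0 : ℝ) < 1 - t0 := by linarith
  have ha0 : 0 ≤ a := div_nonneg (by linarith) hd.le
  have ha1 : a ≤ 1 := by rw [ha, div_le_one hd]; linarith
  have he : t = a * t0 + (1 - a) * 1 := by
    have : a * (1 - t0) = 1 - t := div_mul_cancel₀ _ hd.ne'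
    linarith
  have mem : ∀ s ∈ Icc (0 : ℝ) 1, 1 - 2 * s * p ∈ Icc (-1 : ℝ) 1 := fun s hs => by
    constructor <;> nlinarith [hs.1, hs.2, hp.1, hp.2]
  have hc := concaveOn_ent.2 (mem t0 ⟨h0.le, h3.le⟩) (mem 1 ⟨zero_le_one, le_rfl⟩) ha0
    (sub_nonneg.2 ha1) (by ring)
  simp only [smul_eq_mul] at hc
  rw [show a * (1 - 2 * t0 * p) + (1 - a) * (1 - 2 * 1 * p) = 1 - 2 * t * p by rw [he]; ring] at hc
  unfold psiFn
  rw [mul_one] at hc
  have ec : t * ent (1 - 2 * p) = (a * t0 + (1 - a)) * ent (1 - 2 * p) := by rw [he, mul_one]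
  linarith

lemma qFn_le_chord {M R : ℝ} (h0 : 0 ≤ M) (h1 : M ≤ R) (hR : 0 < R) (hR2 : R ≤ 1 / 2) :
    qFn M ≤ 1 + (qFn R - 1) * M / R := by
  rw [← sub_nonneg]
  have e : 1 + (qFn R - 1) * M / R - qFn M
      = M * (R - M) * (7 / 8 - (M + R) / 2 + 3 / 8 * (M ^ 2 + M * R + R ^ 2)) := by
    unfold qFn satWeight; field_simp; ring
  rw [e]
  exact mul_nonneg (mul_nonneg h0 (sub_nonneg.2 h1)) (by nlinarith)

lemma qFn_nonneg {M : ℝ} (h0 : 0 ≤ M) (h1 : M ≤ 1 / 2) : 0 ≤ qFn M := by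
  unfold qFn satWeight
  nlinarith [mul_nonneg h0 (sub_nonneg.2 h1), sq_nonneg M, mul_nonneg (sq_nonneg M) h0]

/-- A linear function that is nonnegative at the vertices is nonnegative on the quadrilateral. -/
lemma quad_nonneg {L0 Lr Ls r s r2 r1 R : ℝ} (h2 : 0 < r2) (h21 : r2 ≤ r1) (h2R : 2 * r2 ≤ R)
    (h1R : r1 ≤ R) (v1 : 0 ≤ L0 + Lr * r2 + Ls * r2) (v2 : 0 ≤ L0 + Lr * (2 * r2))
    (v3 : 0 ≤ L0 + Lr * R) (v4 : 0 ≤ L0 + Lr * r1 + Ls * r1) (hs : 0 ≤ s) (hsr : s ≤ r)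
    (hlow : 2 * r2 ≤ r + s) (hup : r1 * r + (R - r1) * s ≤ R * r1) :
    0 ≤ L0 + Lr * r + Ls * s := by
  have h1 : 0 < r1 := h2.trans_le h21
  have hR : 0 < R := h1.trans_le h1R
  have hs1 : s ≤ r1 := by nlinarith
  -- the right end of the horizontal line
  have hright : 0 ≤ L0 + Lr * (R - (R - r1) * s / r1) + Ls * s := by
    obtain ⟨a, b, ha, hb, hab, he⟩ := exists_weights hs hs1
    have := add_nonneg (mul_nonneg ha v3) (mul_nonneg hb v4)
    have e2 : R - (R - r1) * s / r1 = a * R + b * r1 := by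
      rw [← he, mul_zero, zero_add, ← mul_assoc, mul_div_assoc, div_self h1.ne']
      linear_combination (-R) * hab
    rw [e2]
    refine this.trans (le_of_eq ?_)
    rw [← he]; linear_combination L0 * hab
  have hle : r ≤ R - (R - r1) * s / r1 := by
    rw [le_sub_iff_add_le, ← le_sub_iff_add_le', div_le_iff₀ h1]; linarith
  rcases le_total s r2 with hsr2 | hsr2
  · have hleft : 0 ≤ L0 + Lr * (2 * r2 - s) + Ls * s := by
      obtain ⟨a, b, ha, hb, hab, he⟩ := exists_weights hs hsr2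
      have := add_nonneg (mul_nonneg ha v2) (mul_nonneg hb v1)
      refine this.trans (le_of_eq ?_)
      rw [← he]; linear_combination (L0 + 2 * Lr * r2) * hab
    obtain ⟨a, b, ha, hb, hab, he⟩ :=
      exists_weights (show 2 * r2 - s ≤ r by linarith) hle
    have := add_nonneg (mul_nonneg ha hleft) (mul_nonneg hb hright)
    refine this.trans (le_of_eq ?_)
    rw [← he]; linear_combination (L0 + Ls * s) * hab
  · have hleft : 0 ≤ L0 + Lr * s + Ls * s := by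
      obtain ⟨a, b, ha, hb, hab, he⟩ := exists_weights hsr2 hs1
      have := add_nonneg (mul_nonneg ha v1) (mul_nonneg hb v4)
      refine this.trans (le_of_eq ?_)
      rw [← he]; linear_combination L0 * hab
    obtain ⟨a, b, ha, hb, hab, he⟩ := exists_weights hsr hle
    have := add_nonneg (mul_nonneg ha hleft) (mul_nonneg hb hright)
    refine this.trans (le_of_eq ?_)
    rw [← he]; linear_combination (L0 + Ls * s) * hab

lemma tanh_one_le : tanh (1 : ℝ) ≤ 762 / 1000 := by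
  rw [tanh_eq_exp, show exp (2 * (1 : ℝ)) = exp 1 * exp 1 by rw [← exp_add]; norm_num,
    div_le_iff₀ (by positivity)]
  nlinarith [exp_one_lt_d9, exp_one_gt_d9]

/-- The atoms of a band lie below the chord through two points where `F` is nonnegative. -/
lemma atoms_below {r s r1 R ρ ρ' : ℝ} (h1 : 0 < r1) (h1R : r1 ≤ R) (hR : R < 1 / 2) (hs : 0 < s)
    (hsr : s ≤ r) (hr : r ≤ 1 / 2) (hρ : 0 < ρ) (hρρ : ρ ≤ ρ')
    (heq : (ent (1 - 2 * r) + ent (1 - 2 * s)) / 2 = ρ * (1 - r - s))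
    (f1 : ρ' * (1 - 2 * r1) ≤ ent (1 - 2 * r1)) (f2 : 2 * ρ' * (1 - R) ≤ ent (1 - 2 * R)) :
    r1 * r + (R - r1) * s ≤ R * r1 := by
  by_contra hc
  push Not at hc
  set L := r1 * r + (R - r1) * s with hL
  have hRr : 0 < R * r1 := mul_pos (by linarith) h1
  have hL0 : 0 < L := hRr.trans hc
  set θ := R * r1 / L with hθ
  have hθ0 : 0 < θ := div_pos hRr hL0
  have hθ1 : θ < 1 := by rw [hθ, div_lt_one hL0]; exact hc
  have hθL : θ * L = R * r1 := div_mul_cancel₀ _ hL0.ne'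
  have hsθ : θ * s ≤ r1 := by
    have h : R * (θ * s) ≤ R * r1 := by
      have := mul_le_mul_of_nonneg_left hsr (mul_nonneg hθ0.le h1.le)
      rw [← hθL, hL]; linarith
    exact le_of_mul_le_mul_left h (by linarith)
  obtain ⟨p, q, hp, hq, hpq, he⟩ := exists_weights (mul_nonneg hθ0.le hs.le) hsθ
  rw [mul_zero, zero_add] at he
  have erθ : θ * r = p * R + q * r1 := by
    refine mul_left_cancel₀ h1.ne' ?_
    rw [hL] at hθL
    linear_combination hθL + (R - r1) * he - R * r1 * hpq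
  have mem : ∀ z ∈ Icc (0 : ℝ) (1 / 2), 1 - 2 * z ∈ Icc (-1 : ℝ) 1 := fun z hz =>
    ⟨by linarith [hz.2], by linarith [hz.1]⟩
  have anti : ∀ z z' : ℝ, 0 ≤ z → z < z' → z' ≤ 1 / 2 → ent (1 - 2 * z) < ent (1 - 2 * z') :=
    fun z z' h0 h1 h2 => Skel.strictAntiOn_hbin ⟨by linarith, by linarith⟩
      ⟨by linarith, by linarith⟩ (by linarith)
  have ca := concaveOn_ent.2 (mem R ⟨by linarith, hR.le⟩) (mem r1 ⟨h1.le, by linarith⟩) hp hq hpq
  have cb := concaveOn_ent.2 (mem 0 ⟨le_rfl, by norm_num⟩) (mem r1 ⟨h1.le, by linarith⟩) hp hq hpq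
  simp only [smul_eq_mul] at ca cb
  rw [show p * (1 - 2 * R) + q * (1 - 2 * r1) = 1 - 2 * (θ * r) by
    rw [erθ]; linear_combination hpq] at ca
  rw [show p * (1 - 2 * (0 : ℝ)) + q * (1 - 2 * r1) = 1 - 2 * (θ * s) by
    linear_combination hpq - 2 * he, show (1 : ℝ) - 2 * 0 = 1 by norm_num, ent_one,
    mul_zero, zero_add] at cb
  have m1 := anti (θ * r) r (mul_nonneg hθ0.le (hs.trans_le hsr).le)
    (mul_lt_of_lt_one_left (hs.trans_le hsr) hθ1) hr
  have m2 := anti (θ * s) s (mul_nonneg hθ0.le hs.le) (mul_lt_of_lt_one_left hs hθ1)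
    (hsr.trans hr)
  have f1' := mul_le_mul_of_nonneg_left f1 hq
  have f2' := mul_le_mul_of_nonneg_left f2 hp
  have hlin : ρ * (1 - r - s) ≤ ρ' * (1 - θ * r - θ * s) := by
    refine mul_le_mul hρρ ?_ (by linarith) (by linarith)
    have := mul_le_of_le_one_left (hs.trans_le hsr).le hθ1.le
    have := mul_le_of_le_one_left hs.le hθ1.le
    linarith
  rw [erθ, ← he] at hlin
  obtain rfl : p = 1 - q := by linarith
  linarith

/-- The atoms of a band lie above `r + s = 2 r2`. -/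
lemma atoms_above {r s r2 ρ ρ' : ℝ} (h2 : r2 ≤ 1 / 2) (hs : 0 < s) (hsr : s ≤ r) (hr : r < 1)
    (hρ : 0 < ρ') (hρρ : ρ' ≤ ρ)
    (heq : (ent (1 - 2 * r) + ent (1 - 2 * s)) / 2 = ρ * (1 - r - s))
    (f : ent (1 - 2 * r2) ≤ ρ' * (1 - 2 * r2)) : 2 * r2 ≤ r + s := by
  by_contra hc
  push Not at hc
  have c := concaveOn_ent.2 (show 1 - 2 * r ∈ Icc (-1 : ℝ) 1 from ⟨by linarith, by linarith⟩)
    (show 1 - 2 * s ∈ Icc (-1 : ℝ) 1 from ⟨by linarith, by linarith⟩)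
    (show (0 : ℝ) ≤ 1 / 2 by norm_num) (show (0 : ℝ) ≤ 1 / 2 by norm_num) (by norm_num)
  simp only [smul_eq_mul] at c
  rw [show 1 / 2 * (1 - 2 * r) + 1 / 2 * (1 - 2 * s) = 1 - 2 * ((r + s) / 2) by ring] at c
  have c2 : ent (1 - 2 * ((r + s) / 2)) < ent (1 - 2 * r2) :=
    Skel.strictAntiOn_hbin ⟨by linarith, by linarith⟩ ⟨by linarith, by linarith⟩ (by linarith)
  have c5 : ρ' * (1 - 2 * r2) ≤ ρ * (1 - r - s) :=
    mul_le_mul hρρ (by linarith) (by linarith) (by linarith)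
  linarith

/-- An atom of small slope has `r ≤ 1 / 2`. -/
lemma atoms_half {r s ρ : ℝ} (hs : 0 < s) (hsr : s ≤ r) (hr : r < 1) (hh : 0 < 1 - r - s)
    (hρ : ρ ≤ 69 / 100)
    (heq : (ent (1 - 2 * r) + ent (1 - 2 * s)) / 2 = ρ * (1 - r - s)) : r ≤ 1 / 2 := by
  by_contra hc
  push Not at hc
  have c := concaveOn_ent.2 (show (0 : ℝ) ∈ Icc (-1 : ℝ) 1 from ⟨by norm_num, by norm_num⟩)
    (show (-1 : ℝ) ∈ Icc (-1 : ℝ) 1 from ⟨le_rfl, by norm_num⟩)
    (show 0 ≤ 2 * (1 - r) by linarith) (show 0 ≤ 1 - 2 * (1 - r) by linarith) (by ring)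
  simp only [smul_eq_mul] at c
  rw [show 2 * (1 - r) * 0 + (1 - 2 * (1 - r)) * -1 = 1 - 2 * r by ring,
    ent_neg, ent_one, ent_zero, mul_zero, add_zero] at c
  have s0 : 0 ≤ ent (1 - 2 * s) := Skel.hbin_nonneg (by linarith) (by linarith)
  have l2 := log_two_gt_d9
  have u : ρ * (1 - r - s) ≤ 69 / 100 * (1 - r) :=
    mul_le_mul hρ (by linarith) hh.le (by norm_num)
  have : 69 / 100 * (1 - r) < log 2 * (1 - r) := mul_lt_mul_of_pos_right (by linarith) (by linarith)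
  linarith

lemma gvert_real {g : GBand} {r' s' : ℚ} (h : gvertOK g r' s' = true) (ht0 : 0 < g.t0)
    (ht1 : g.t0 < 1) (hrc0 : 0 < g.rc) (hrc1 : g.rc < 1) (hsc0 : 0 < g.sc) (hsc1 : g.sc < 1) :
    0 ≤ (psiFn (g.t0 : ℝ) (1 - (g.rc : ℝ)) + psiSlope (g.t0 : ℝ) (1 - (g.rc : ℝ)) * (g.rc : ℝ)
          + psiFn (g.t0 : ℝ) (g.sc : ℝ) - psiSlope (g.t0 : ℝ) (g.sc : ℝ) * (g.sc : ℝ)
          - (1 - (g.t0 : ℝ)) * (alphaUB g.Ea : ℝ))
        + (-psiSlope (g.t0 : ℝ) (1 - (g.rc : ℝ))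
          - (1 - (g.t0 : ℝ)) * (alphaUB g.Ea : ℝ) * ((qFn (g.R : ℝ) - 1) / (g.R : ℝ))) * (r' : ℝ)
        + (psiSlope (g.t0 : ℝ) (g.sc : ℝ)
          + (1 - (g.t0 : ℝ)) * (alphaUB g.Ea : ℝ) * ((qFn (g.R : ℝ) - 1) / (g.R : ℝ))) * (s' : ℝ) := by
  simp only [gvertOK, decide_eq_true_eq] at h
  have a1 := psiLin_le (p0 := 1 - g.rc) (p := 1 - r') ht0 ht1.le (by linarith) (by linarith)
  have a2 := psiLin_le (p0 := g.sc) (p := s') ht0 ht1.le hsc0 hsc1
  have h' := (Rat.cast_le (K := ℝ)).2 h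
  have eq : ((qQ g.R : ℚ) : ℝ) = qFn (g.R : ℝ) := by rw [qQ, qFn]; push_cast [cast_wQ]; ring
  push_cast at a1 a2 h'
  rw [eq] at h'
  set P1 := psiFn (g.t0 : ℝ) (1 - (g.rc : ℝ))
  set S1 := psiSlope (g.t0 : ℝ) (1 - (g.rc : ℝ))
  set P2 := psiFn (g.t0 : ℝ) (g.sc : ℝ)
  set S2 := psiSlope (g.t0 : ℝ) (g.sc : ℝ)
  set A := (alphaUB g.Ea : ℝ)
  have e : (1 - (g.t0 : ℝ)) * A * (1 + (qFn (g.R : ℝ) - 1) * ((r' : ℝ) - s') / g.R)
      = (1 - (g.t0 : ℝ)) * A
        + (1 - (g.t0 : ℝ)) * A * ((qFn (g.R : ℝ) - 1) / g.R) * ((r' : ℝ) - s') := by ring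
  linarith

/-- The children's term at the smallest weight. -/
lemma gband_psi {g : GBand} (h : gbandOK g = true) {r s : ℝ} (hs : 0 < s) (hsr : s ≤ r)
    (hr : r ≤ 1 / 2) (hlow : 2 * (g.r2 : ℝ) ≤ r + s)
    (hup : (g.r1 : ℝ) * r + ((g.R : ℝ) - g.r1) * s ≤ (g.R : ℝ) * g.r1) :
    (1 - (g.t0 : ℝ)) * (alphaUB g.Ea : ℝ) * qFn (r - s)
      ≤ psiFn (g.t0 : ℝ) (1 - r) + psiFn (g.t0 : ℝ) s := by
  simp only [gbandOK, Bool.and_eq_true, decide_eq_true_eq] at h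
  obtain ⟨⟨⟨⟨⟨⟨⟨⟨⟨⟨⟨⟨⟨⟨⟨⟨⟨⟨⟨⟨⟨⟨⟨⟨k1, k2⟩, k3⟩, k4⟩, k5⟩, k6⟩, k7⟩, k8⟩, k9⟩, k10⟩, k11⟩,
    k12⟩, k13⟩, k14⟩, k15⟩, k16⟩, k17⟩, k18⟩, k19⟩, k20⟩, k21⟩, v1⟩, v2⟩, v3⟩, v4⟩ := h
  have h5 : (0 : ℝ) < (g.r2 : ℝ) := by exact_mod_cast k5
  have h6 : (g.r2 : ℝ) ≤ (g.r1 : ℝ) := by exact_mod_cast k6
  have h7 : 2 * (g.r2 : ℝ) ≤ (g.R : ℝ) := by exact_mod_cast k7
  have h8 : (g.R : ℝ) < 1 / 2 := by
    have := (Rat.cast_lt (K := ℝ)).2 k8; push_cast at this; exact this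
  have h9 : (g.r1 : ℝ) ≤ (g.R : ℝ) := by exact_mod_cast k9
  have h1 : (0 : ℝ) < (g.r1 : ℝ) := h5.trans_le h6
  have w1 := gvert_real v1 k1 k2 k15 k16 k17 k18
  have w2 := gvert_real v2 k1 k2 k15 k16 k17 k18
  have w3 := gvert_real v3 k1 k2 k15 k16 k17 k18
  have w4 := gvert_real v4 k1 k2 k15 k16 k17 k18
  push_cast at w2 w3
  rw [mul_zero, add_zero] at w2 w3
  have hlin := quad_nonneg h5 h6 h7 h9 w1 w2 w3 w4 hs.le hsr hlow hup
  have hMR : r - s ≤ g.R := by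
    refine le_of_mul_le_mul_left ?_ h1
    have : 0 ≤ (g.R : ℝ) * s := mul_nonneg (by linarith) hs.le
    linarith
  have htI : (g.t0 : ℝ) ∈ Ioc (0 : ℝ) 1 := ⟨by exact_mod_cast k1, by exact_mod_cast k2.le⟩
  have c1 : (1 - (g.rc : ℝ)) ∈ Ioo (0 : ℝ) 1 :=
    ⟨by linarith [show (g.rc : ℝ) < 1 by exact_mod_cast k16],
      by linarith [show (0 : ℝ) < g.rc by exact_mod_cast k15]⟩
  have c2 : (g.sc : ℝ) ∈ Ioo (0 : ℝ) 1 := ⟨by exact_mod_cast k17, by exact_mod_cast k18⟩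
  have t1 := psi_tangent htI c1 (p := 1 - r) ⟨by linarith, by linarith⟩
  have t2 := psi_tangent htI c2 (p := s) ⟨hs, by linarith⟩
  have hq := qFn_le_chord (sub_nonneg.2 hsr) hMR (by linarith) h8.le
  have hA : 0 ≤ (alphaUB g.Ea : ℝ) :=
    (alphaT_nonneg (ent_pt_pos g.Ea).le).trans (alpha_bounds k19).2
  have := mul_le_mul_of_nonneg_left hq (mul_nonneg (sub_nonneg.2 htI.2) hA)
  linarith [show (1 - (g.t0 : ℝ)) * (alphaUB g.Ea : ℝ)
      * (1 + (qFn (g.R : ℝ) - 1) * (r - s) / g.R)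
    = (1 - (g.t0 : ℝ)) * (alphaUB g.Ea : ℝ)
      + (1 - (g.t0 : ℝ)) * (alphaUB g.Ea : ℝ) * ((qFn (g.R : ℝ) - 1) / g.R) * (r - s) by ring]

/-- **The states next to the equality curve.** -/
theorem gband_core {g : GBand} (h : gbandOK g = true) {a b t : ℝ} (ha : 0 ≤ a) (hb : 0 < b)
    (ht0 : (g.t0 : ℝ) ≤ t) (ht1 : t ≤ 1)
    (hlo : (g.rlo : ℝ) * ((tanh (a + b) - tanh (a - b)) / 2)
      ≤ (ent (tanh (a + b)) + ent (tanh (a - b))) / 2)
    (hhi : (ent (tanh (a + b)) + ent (tanh (a - b))) / 2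
      ≤ (g.rhi : ℝ) * ((tanh (a + b) - tanh (a - b)) / 2)) :
    1 ≤ b ∧ a ≤ b ∧ ∀ u ∈ Ioc (0 : ℝ) 1,
      alphaT (eCap (t * ((ent (tanh (a + b)) + ent (tanh (a - b))) / 2) / u))
          * ((1 - t) * qFn ((tanh (a + b) + tanh (a - b)) / 2))
        ≤ ent (toCorner t (tanh (a + b))) + ent (toCorner t (tanh (a - b)))
          - 2 * (t * ((ent (tanh (a + b)) + ent (tanh (a - b))) / 2)) := by
  have hok := h
  simp only [gbandOK, Bool.and_eq_true, decide_eq_true_eq] at h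
  obtain ⟨⟨⟨⟨⟨⟨⟨⟨⟨⟨⟨⟨⟨⟨⟨⟨⟨⟨⟨⟨⟨⟨⟨⟨k1, k2⟩, k3⟩, k4⟩, k5⟩, k6⟩, k7⟩, k8⟩, k9⟩, k10⟩, k11⟩,
    k12⟩, k13⟩, k14⟩, -⟩, -⟩, -⟩, -⟩, k19⟩, k20⟩, k21⟩, -⟩, -⟩, -⟩, -⟩ := h
  set x := tanh (a + b) with hxd
  set y := tanh (a - b) with hyd
  have hx : x ∈ Ioo (-1 : ℝ) 1 := ⟨neg_one_lt_tanh _, tanh_lt_one _⟩
  have hy : y ∈ Ioo (-1 : ℝ) 1 := ⟨neg_one_lt_tanh _, tanh_lt_one _⟩
  have hM : 0 ≤ x + y := by
    have := strictMono_tanh'.monotone (show -(a - b) ≤ a + b by linarith)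
    rw [tanh_neg] at this
    linarith
  set r := (1 + y) / 2 with hr
  set s := (1 - x) / 2 with hs
  have er : y = -(1 - 2 * r) := by rw [hr]; ring
  have es : x = 1 - 2 * s := by rw [hs]; ring
  have hr0 : 0 < r := by rw [hr]; linarith [hy.1]
  have hr1 : r < 1 := by rw [hr]; linarith [hy.2]
  have hs0 : 0 < s := by rw [hs]; linarith [hx.2]
  have hsr : s ≤ r := by rw [hr, hs]; linarith
  have hyx : y < x := strictMono_tanh' (by linarith)
  have hhalf : 0 < 1 - r - s := by rw [hr, hs]; linarith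
  have ehalf : (x - y) / 2 = 1 - r - s := by rw [hr, hs]; ring
  set hh := (ent x + ent y) / 2 with hhd
  rw [ehalf] at hlo hhi
  obtain ⟨ρ, heq⟩ : ∃ ρ, hh = ρ * (1 - r - s) := ⟨hh / (1 - r - s), by field_simp⟩
  have hρlo : (g.rlo : ℝ) ≤ ρ := le_of_mul_le_mul_right (heq ▸ hlo) hhalf
  have hρhi : ρ ≤ (g.rhi : ℝ) := le_of_mul_le_mul_right (heq ▸ hhi) hhalf
  have h3 : (0 : ℝ) < (g.rlo : ℝ) := by exact_mod_cast k3
  have h4 : (g.rhi : ℝ) ≤ 69 / 100 := by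
    have := (Rat.cast_le (K := ℝ)).2 k4; push_cast at this; exact this
  have heq' : (ent (1 - 2 * r) + ent (1 - 2 * s)) / 2 = ρ * (1 - r - s) := by
    rw [← heq, hhd, er, ent_neg, ← es]; ring
  have h5 : (0 : ℝ) < (g.r2 : ℝ) := by exact_mod_cast k5
  have h7 : 2 * (g.r2 : ℝ) ≤ (g.R : ℝ) := by exact_mod_cast k7
  have h8 : (g.R : ℝ) < 1 / 2 := by
    have := (Rat.cast_lt (K := ℝ)).2 k8; push_cast at this; exact this
  have h9 : (g.r1 : ℝ) ≤ (g.R : ℝ) := by exact_mod_cast k9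
  have h1 : (0 : ℝ) < (g.r1 : ℝ) := lt_of_lt_of_le h5 (by exact_mod_cast k6)
  have hr2 : r ≤ 1 / 2 := atoms_half hs0 hsr hr1 hhalf (hρhi.trans h4) heq'
  have hlow : 2 * (g.r2 : ℝ) ≤ r + s := by
    refine atoms_above (by linarith) hs0 hsr hr1 h3 hρlo heq' ?_
    have : g.r2 ≤ 1 / 2 := by linarith
    have c3 := ent_le_entUB (x := 1 - 2 * g.r2) (by linarith) (by linarith)
    have c4 := (Rat.cast_le (K := ℝ)).2 k12
    push_cast at c3 c4
    exact c3.trans c4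
  have hup : (g.r1 : ℝ) * r + ((g.R : ℝ) - g.r1) * s ≤ (g.R : ℝ) * g.r1 := by
    have hp : 0 < g.r1 := k5.trans_le k6
    refine atoms_below h1 h9 h8 hs0 hsr hr2 (h3.trans_le hρlo) hρhi heq' ?_ ?_
    · have f := entLB_le_ent (x := 1 - 2 * g.r1) (by linarith) (by linarith)
      have k := (Rat.cast_le (K := ℝ)).2 k13
      push_cast at f k
      exact k.trans f
    · have f := entLB_le_ent (x := 1 - 2 * g.R) (by linarith) (by linarith)
      have k := (Rat.cast_le (K := ℝ)).2 k14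
      push_cast at f k
      exact k.trans f
  have hsum : r + s ≤ max (2 * (g.r1 : ℝ)) g.R := by
    have e : (g.r1 : ℝ) * (r + s) + ((g.R : ℝ) - 2 * g.r1) * s ≤ (g.R : ℝ) * g.r1 := by linarith
    rcases le_total (2 * (g.r1 : ℝ)) g.R with hh' | hh'
    · refine le_max_of_le_right (le_of_mul_le_mul_left ?_ h1)
      have := mul_nonneg (sub_nonneg.2 hh') hs0.le
      linarith
    · have hs1 : s ≤ g.r1 := by
        refine le_of_mul_le_mul_left ?_ (show (0 : ℝ) < g.R by linarith)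
        have := mul_le_mul_of_nonneg_left hsr h1.le
        linarith
      refine le_max_of_le_left (le_of_mul_le_mul_left ?_ h1)
      have := mul_le_mul_of_nonneg_left hs1 (sub_nonneg.2 hh')
      linarith
  have hmax : max (2 * (g.r1 : ℝ)) g.R ≤ 1 - 762 / 1000 := by
    have a := (Rat.cast_le (K := ℝ)).2 k10
    have b := (Rat.cast_le (K := ℝ)).2 k11
    push_cast at a b
    exact max_le a b
  have hb1 : 1 ≤ b := by
    have h1 := atom_half_le a hb.le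
    rw [← hxd, ← hyd, ehalf] at h1
    have h2 : tanh b * (1 - ((x + y) / 2) ^ 2) ≤ tanh b :=
      mul_le_of_le_one_right (tanh_nonneg' hb.le) (by linarith [sq_nonneg ((x + y) / 2)])
    by_contra hc
    push Not at hc
    have := strictMono_tanh' hc
    linarith [tanh_one_le]
  have hab : a ≤ b := by
    by_contra hc
    push Not at hc
    have := strictMono_tanh' (show (0 : ℝ) < a - b by linarith)
    rw [tanh_zero, ← hyd] at this
    linarith
  refine ⟨hb1, hab, fun u hu => ?_⟩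
  rw [show toCorner t x = 1 - 2 * t * s by rw [toCorner, es]; ring,
    show toCorner t y = 1 - 2 * t * (1 - r) by rw [toCorner, er]; ring]
  have hT : ent (1 - 2 * t * s) + ent (1 - 2 * t * (1 - r)) - 2 * (t * hh)
      = psiFn t (1 - r) + psiFn t s := by
    rw [psiFn, psiFn, show (1 : ℝ) - 2 * (1 - r) = -(1 - 2 * r) by ring, ent_neg, heq, ← heq']
    ring
  rw [hT]
  have ht0' : (0 : ℝ) < (g.t0 : ℝ) := by exact_mod_cast k1
  have ht01 : (g.t0 : ℝ) < 1 := by exact_mod_cast k2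
  have ht : 0 < t := ht0'.trans_le ht0
  have hα : alphaT (eCap (t * hh / u)) ≤ (alphaUB g.Ea : ℝ) := by
    have he := (eLB_le (show 1 ≤ g.Ea by
      simp only [alphaOK, Bool.and_eq_true, decide_eq_true_eq] at k19; exact k19.1.1.le)).2
    have k20' := (Rat.cast_le (K := ℝ)).2 k20
    have k21' := (Rat.cast_le (K := ℝ)).2 k21
    push_cast at k20' k21'
    refine le_trans (alphaT_anti (ent_pt_pos g.Ea) ?_ (min_le_right _ _)) (alpha_bounds k19).2
    refine le_min (he.trans (k21'.trans ?_)) (he.trans k20')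
    refine le_trans ?_ ((le_div_iff₀ hu.1).2 (mul_le_of_le_one_right
      (mul_nonneg ht.le (le_trans (mul_nonneg h3.le hhalf.le) hlo)) hu.2))
    rw [mul_assoc]
    refine mul_le_mul ht0 (le_trans (mul_le_mul_of_nonneg_left ?_ h3.le) hlo)
      (mul_nonneg h3.le (by linarith)) ht.le
    linarith
  have hqn : 0 ≤ qFn ((x + y) / 2) := qFn_nonneg (by linarith) (by rw [hr] at hr2; linarith [hx.2])
  have eM : (x + y) / 2 = r - s := by rw [hr, hs]; ring
  have hpsi := gband_psi hok hs0 hsr hr2 hlow hup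
  rw [← eM] at hpsi
  have sc1 := psi_scale ht0' ht0 ht1 ht01 (p := 1 - r) ⟨by linarith, by linarith⟩
  have sc2 := psi_scale ht0' ht0 ht1 ht01 (p := s) ⟨hs0, by linarith⟩
  have hk : 0 ≤ (1 - t) / (1 - (g.t0 : ℝ)) := div_nonneg (by linarith) (by linarith)
  calc alphaT (eCap (t * hh / u)) * ((1 - t) * qFn ((x + y) / 2))
      ≤ (alphaUB g.Ea : ℝ) * ((1 - t) * qFn ((x + y) / 2)) :=
        mul_le_mul_of_nonneg_right hα (mul_nonneg (by linarith) hqn)
    _ = (1 - t) / (1 - (g.t0 : ℝ))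
          * ((1 - (g.t0 : ℝ)) * (alphaUB g.Ea : ℝ) * qFn ((x + y) / 2)) := by
        have := (sub_pos.2 ht01).ne'
        field_simp
    _ ≤ (1 - t) / (1 - (g.t0 : ℝ)) * (psiFn (g.t0 : ℝ) (1 - r) + psiFn (g.t0 : ℝ) s) :=
        mul_le_mul_of_nonneg_left hpsi hk
    _ ≤ psiFn t (1 - r) + psiFn t s := by rw [mul_add]; linarith

end Vale.Agent.P322.Check
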