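import Mathlib

/-!
# Courtade–Kumar: certified rational bounds for `log` and binary entropy

Fixed point arithmetic with `2 ^ 48` as the unit, to be evaluated by the kernel.
-/

namespace Vale.Agent.P322.Check

open Real Finset

/-- The fixed point unit. -/
def unit : ℕ := 2 ^ 48

/-- Division rounded up. -/
def cdiv (a b : ℕ) : ℕ := (a + b - 1) / b

/-- Upper fixed point sum of `z ^ k / k + z ^ (k+2) / (k+2) + ...`, `p` standing for `z ^ k`. -/
def sUp (z2 : ℕ) : ℕ → ℕ → ℕ → ℕ → ℕ
  | 0, p, k, acc => acc + cdiv (p * unit) (k * (unit - z2))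
  | n + 1, p, k, acc => sUp z2 n (cdiv (p * z2) unit) (k + 2) (acc + cdiv p k)

/-- Lower fixed point sum of the same series. -/
def sLo (z2 : ℕ) : ℕ → ℕ → ℕ → ℕ → ℕ
  | 0, _, _, acc => acc
  | n + 1, p, k, acc => sLo z2 n (p * z2 / unit) (k + 2) (acc + p / k)

/-- Number of series terms. -/
def terms : ℕ := 11

/-- Upper bound of `unit * log (n / d) / 2` for `d ≤ n`. -/
def halfLogUp (n d : ℕ) : Option ℕ :=
  let z := cdiv ((n - d) * unit) (n + d)
  let z2 := cdiv (z * z) unit
  if d ≤ n ∧ 0 < d ∧ z2 < unit then some (sUp z2 terms z 1 0) else none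

/-- Lower bound of `unit * log (n / d) / 2` for `d ≤ n`. -/
def halfLogLo (n d : ℕ) : ℕ :=
  let z := (n - d) * unit / (n + d)
  sLo (z * z / unit) terms z 1 0

/-- Numerator, denominator and exponent `k` of the reduction `a / b = 2 ^ k * (n / d)`. -/
def reduce (a b : ℕ) : ℕ × ℕ × ℕ × ℕ :=
  let ka := Nat.log2 a
  let kb := Nat.log2 b
  if a * 2 ^ kb < b * 2 ^ ka then (a * 2 ^ (kb + 1), b * 2 ^ ka, ka, kb + 1)
  else (a * 2 ^ kb, b * 2 ^ ka, ka, kb)

/-- An upper bound of `log q` for `0 < q`. -/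
def logUB (q : ℚ) : ℚ :=
  let r := reduce q.num.toNat q.den
  match halfLogUp r.1 r.2.1, halfLogUp 2 1 with
  | some s, some t =>
      (2 * (s : ℚ) + 2 * (t : ℚ) * r.2.2.1 - 2 * (halfLogLo 2 1 : ℚ) * r.2.2.2) / unit
  | _, _ => q - 1

/-- A lower bound of `log q` for `0 < q`. -/
def logLB (q : ℚ) : ℚ :=
  let r := reduce q.num.toNat q.den
  match halfLogUp 2 1 with
  | some t =>
      if r.2.1 ≤ r.1 ∧ 0 < r.2.1 then
        (2 * (halfLogLo r.1 r.2.1 : ℚ) + 2 * (halfLogLo 2 1 : ℚ) * r.2.2.1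
          - 2 * (t : ℚ) * r.2.2.2) / unit
      else 1 - 1 / q
  | none => 1 - 1 / q

/-! ### Soundness -/

/-- Partial sums of the series of `artanh`. -/
noncomputable def artSum (z : ℝ) (n : ℕ) : ℝ := ∑ i ∈ range n, z ^ (2 * i + 1) / (2 * i + 1)

lemma artSum_bounds {z : ℝ} (h0 : 0 ≤ z) (h1 : z < 1) (n : ℕ) :
    2 * artSum z n ≤ log (1 + z) - log (1 - z) ∧
      log (1 + z) - log (1 - z)
        ≤ 2 * (artSum z n + z ^ (2 * n + 1) / ((2 * n + 1) * (1 - z ^ 2))) := by
  set c := 2 / (1 - z ^ 2) with hc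
  have hz2 : 0 < 1 - z ^ 2 := by nlinarith
  set h : ℝ → ℝ := fun x => log (1 + x) - log (1 - x) - 2 * artSum x n with hh
  have hd : ∀ x ∈ Set.Icc 0 z, HasDerivAt h (2 * x ^ (2 * n) / (1 - x ^ 2)) x := by
    intro x hx
    have a1 : 1 + x ≠ 0 := by linarith [hx.1]
    have a2 : 1 - x ≠ 0 := by linarith [hx.2]
    have hs : HasDerivAt (fun y => artSum y n) (∑ i ∈ range n, x ^ (2 * i)) x := by
      unfold artSum
      refine HasDerivAt.fun_sum fun i _ => ?_
      refine ((hasDerivAt_pow (2 * i + 1) x).div_const _).congr_deriv ?_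
      push_cast
      field_simp
    refine (((((hasDerivAt_id' x).const_add 1).log a1).sub
      (((hasDerivAt_id' x).const_sub 1).log a2)).sub (hs.const_mul 2)).congr_deriv ?_
    have g : (∑ i ∈ range n, x ^ (2 * i)) * (1 - x ^ 2) = 1 - x ^ (2 * n) := by
      simp only [pow_mul]
      exact geom_sum_mul_neg (x ^ 2) n
    have a3 : 1 - x ^ 2 ≠ 0 := by
      rw [show 1 - x ^ 2 = (1 + x) * (1 - x) by ring]; exact mul_ne_zero a1 a2
    field_simp
    linear_combination (-2 : ℝ) * ((1 + x) * (1 - x)) * g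
  have h00 : h 0 = 0 := by simp [hh, artSum]
  constructor
  · have hm : MonotoneOn h (Set.Icc 0 z) := by
      refine monotoneOn_of_hasDerivWithinAt_nonneg (convex_Icc 0 z)
        (fun x hx => (hd x hx).continuousAt.continuousWithinAt)
        (fun x hx => (hd x (interior_subset hx)).hasDerivWithinAt) fun x hx => ?_
      have hx' := interior_subset hx
      have hxz : x ^ 2 ≤ z ^ 2 := pow_le_pow_left₀ hx'.1 hx'.2 2
      exact div_nonneg (mul_nonneg (by norm_num) (pow_nonneg hx'.1 _)) (by linarith)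
    have := hm (Set.left_mem_Icc.2 h0) (Set.right_mem_Icc.2 h0) h0
    rw [h00] at this
    simp only [hh] at this
    linarith
  · set g : ℝ → ℝ := fun x => c * (x ^ (2 * n + 1) / (2 * n + 1)) - h x with hg
    have hgd : ∀ x ∈ Set.Icc 0 z,
        HasDerivAt g (c * x ^ (2 * n) - 2 * x ^ (2 * n) / (1 - x ^ 2)) x := by
      intro x hx
      refine ((((hasDerivAt_pow (2 * n + 1) x).div_const _).const_mul c).sub
        (hd x hx)).congr_deriv ?_
      push_cast
      field_simp
    have hm : MonotoneOn g (Set.Icc 0 z) := by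
      refine monotoneOn_of_hasDerivWithinAt_nonneg (convex_Icc 0 z)
        (fun x hx => (hgd x hx).continuousAt.continuousWithinAt)
        (fun x hx => (hgd x (interior_subset hx)).hasDerivWithinAt) fun x hx => ?_
      have hx' := interior_subset hx
      have hxz : x ^ 2 ≤ z ^ 2 := pow_le_pow_left₀ hx'.1 hx'.2 2
      rw [sub_nonneg, hc, div_mul_eq_mul_div]
      exact div_le_div_of_nonneg_left (mul_nonneg (by norm_num) (pow_nonneg hx'.1 _)) hz2
        (by linarith)
    have := hm (Set.left_mem_Icc.2 h0) (Set.right_mem_Icc.2 h0) h0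
    simp only [hg, h00, zero_pow (Nat.succ_ne_zero (2 * n)), zero_div, mul_zero, sub_zero] at this
    rw [hc] at this
    simp only [hh] at this
    have e : 2 / (1 - z ^ 2) * (z ^ (2 * n + 1) / (2 * n + 1))
        = 2 * (z ^ (2 * n + 1) / ((2 * n + 1) * (1 - z ^ 2))) := by field_simp
    linarith

lemma le_cdiv {a b : ℕ} (hb : 0 < b) : (a : ℝ) / b ≤ cdiv a b := by
  rw [div_le_iff₀ (by exact_mod_cast hb)]
  have h : a ≤ cdiv a b * b := by
    unfold cdiv
    have := Nat.div_add_mod (a + b - 1) b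
    have := Nat.mod_lt (a + b - 1) hb
    rw [mul_comm]; omega
  exact_mod_cast h

lemma floor_div_le (a b : ℕ) : ((a / b : ℕ) : ℝ) ≤ (a : ℝ) / b := Nat.cast_div_le

lemma unit_pos : (0 : ℝ) < (unit : ℝ) := by norm_num [unit]

lemma sUp_spec {z : ℝ} (hz : 0 ≤ z) {z2 : ℕ} (hlt : z2 < unit) (h2 : z ^ 2 * unit ≤ z2) :
    ∀ n i p acc : ℕ, z ^ (2 * i + 1) * unit ≤ p → artSum z i * unit ≤ acc →
      (artSum z (i + n) + z ^ (2 * (i + n) + 1) / ((2 * (i + n : ℕ) + 1) * (1 - z ^ 2))) * unit
        ≤ sUp z2 n p (2 * i + 1) acc := by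
  have hu := unit_pos
  have hz21 : z ^ 2 < 1 := by
    have h : (z2 : ℝ) < (unit : ℝ) := by exact_mod_cast hlt
    by_contra hc
    push Not at hc
    nlinarith
  intro n
  induction n with
  | zero =>
    intro i p acc hp ha
    rw [Nat.add_zero, sUp, Nat.cast_add, add_mul]
    refine add_le_add ha (le_trans ?_ (le_cdiv (Nat.mul_pos (Nat.succ_pos _) (Nat.sub_pos_of_lt hlt))))
    push_cast [Nat.cast_sub hlt.le]
    have h3 : (0 : ℝ) < unit - z2 := by
      have : (z2 : ℝ) < (unit : ℝ) := by exact_mod_cast hlt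
      linarith
    calc z ^ (2 * i + 1) / ((2 * (i : ℝ) + 1) * (1 - z ^ 2)) * unit
        ≤ (p : ℝ) / ((2 * (i : ℝ) + 1) * (1 - z ^ 2)) := by
          rw [div_mul_eq_mul_div]
          exact div_le_div_of_nonneg_right hp (mul_nonneg (by positivity) (by linarith))
      _ = (p : ℝ) * unit / ((2 * (i : ℝ) + 1) * (unit - z ^ 2 * unit)) := by
          have : (1 : ℝ) - z ^ 2 ≠ 0 := by linarith
          field_simp
      _ ≤ _ := div_le_div_of_nonneg_left (by positivity) (mul_pos (by positivity) h3)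
          (mul_le_mul_of_nonneg_left (by linarith) (by positivity))
  | succ n ih =>
    intro i p acc hp ha
    simp only [sUp]
    rw [show 2 * i + 1 + 2 = 2 * (i + 1) + 1 by ring, show i + (n + 1) = i + 1 + n by ring]
    refine ih (i + 1) _ _ (le_trans ?_ (le_cdiv (by norm_num [unit]))) ?_
    · push_cast
      rw [le_div_iff₀ hu]
      calc z ^ (2 * (i + 1) + 1) * unit * unit = z ^ (2 * i + 1) * unit * (z ^ 2 * unit) := by ring
        _ ≤ p * z2 := mul_le_mul hp h2 (by positivity) (by positivity)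
    · push_cast
      rw [artSum, sum_range_succ, add_mul]
      refine add_le_add ha (le_trans ?_ (le_cdiv (by omega)))
      push_cast
      rw [div_mul_eq_mul_div]
      exact div_le_div_of_nonneg_right hp (by positivity)

lemma sLo_spec {z : ℝ} (hz : 0 ≤ z) {z2 : ℕ} (h2 : (z2 : ℝ) ≤ z ^ 2 * unit) :
    ∀ n i p acc : ℕ, (p : ℝ) ≤ z ^ (2 * i + 1) * unit → (acc : ℝ) ≤ artSum z i * unit →
      (sLo z2 n p (2 * i + 1) acc : ℝ) ≤ artSum z (i + n) * unit := by
  intro n
  induction n with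
  | zero => intro i p acc _ ha; simpa [sLo] using ha
  | succ n ih =>
    intro i p acc hp ha
    simp only [sLo]
    rw [show 2 * i + 1 + 2 = 2 * (i + 1) + 1 by ring, show i + (n + 1) = i + 1 + n by ring]
    refine ih (i + 1) _ _ ((floor_div_le _ _).trans ?_) ?_
    · push_cast
      rw [div_le_iff₀ unit_pos]
      calc (p : ℝ) * z2 ≤ z ^ (2 * i + 1) * unit * (z ^ 2 * unit) :=
            mul_le_mul hp h2 (by positivity) (by positivity)
        _ = _ := by ring
    · push_cast
      rw [artSum, sum_range_succ, add_mul]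
      refine add_le_add ha ((floor_div_le _ _).trans ?_)
      push_cast
      rw [div_mul_eq_mul_div]
      exact div_le_div_of_nonneg_right hp (by positivity)

lemma log_ratio {n d : ℕ} (hd : 0 < d) (h : d ≤ n) :
    let z : ℝ := ((n : ℝ) - d) / (n + d)
    (0 ≤ z ∧ z < 1) ∧ log (1 + z) - log (1 - z) = log ((n : ℝ) / d) := by
  intro z
  have h1 : (0 : ℝ) < d := by exact_mod_cast hd
  have h2 : (d : ℝ) ≤ n := by exact_mod_cast h
  have h3 : (0 : ℝ) < n + d := by linarith
  refine ⟨⟨div_nonneg (by linarith) h3.le, ?_⟩, ?_⟩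
  · simp only [z, div_lt_one h3]; linarith
  · rw [← log_div (by positivity) (by
      simp only [z]; rw [one_sub_div h3.ne']; exact div_ne_zero (by linarith) h3.ne')]
    congr 1
    simp only [z]
    field_simp
    ring_nf
    field_simp

lemma halfLogUp_spec {n d s : ℕ} (h : halfLogUp n d = some s) :
    log ((n : ℝ) / d) ≤ 2 * (s : ℝ) / unit := by
  simp only [halfLogUp, Option.ite_none_right_eq_some, Option.some.injEq] at h
  obtain ⟨⟨hdn, hd, hlt⟩, rfl⟩ := h
  obtain ⟨⟨hz0, hz1⟩, hl⟩ := log_ratio hd hdn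
  set z : ℝ := ((n : ℝ) - d) / (n + d)
  have hzU : z * unit ≤ (cdiv ((n - d) * unit) (n + d) : ℕ) := by
    refine le_trans (le_of_eq ?_) (le_cdiv (by omega))
    simp only [z]; push_cast [Nat.cast_sub hdn]; ring
  have hz2U : z ^ 2 * unit ≤ (cdiv (cdiv ((n - d) * unit) (n + d) * cdiv ((n - d) * unit) (n + d))
      unit : ℕ) := by
    refine le_trans ?_ (le_cdiv (by norm_num [unit]))
    rw [le_div_iff₀ unit_pos]
    push_cast
    calc z ^ 2 * unit * unit = (z * unit) * (z * unit) := by ring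
      _ ≤ _ := mul_le_mul hzU hzU (by positivity) (by positivity)
  have hs := sUp_spec hz0 hlt hz2U terms 0 (cdiv ((n - d) * unit) (n + d)) 0
    (by simpa using hzU) (by simp [artSum])
  simp only [zero_add, mul_zero] at hs
  have := (artSum_bounds hz0 hz1 terms).2
  rw [hl] at this
  rw [le_div_iff₀ unit_pos]
  have := mul_le_mul_of_nonneg_right this unit_pos.le
  linarith

lemma halfLogLo_spec {n d : ℕ} (hd : 0 < d) (h : d ≤ n) :
    2 * (halfLogLo n d : ℝ) / unit ≤ log ((n : ℝ) / d) := by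
  obtain ⟨⟨hz0, hz1⟩, hl⟩ := log_ratio hd h
  set z : ℝ := ((n : ℝ) - d) / (n + d)
  have hzU : (((n - d) * unit / (n + d) : ℕ) : ℝ) ≤ z * unit := by
    refine (floor_div_le _ _).trans (le_of_eq ?_)
    simp only [z]; push_cast [Nat.cast_sub h]; ring
  have hz2U : ((((n - d) * unit / (n + d)) * ((n - d) * unit / (n + d)) / unit : ℕ) : ℝ)
      ≤ z ^ 2 * unit := by
    refine (floor_div_le _ _).trans ?_
    rw [div_le_iff₀ unit_pos]
    push_cast
    calc _ ≤ (z * unit) * (z * unit) := mul_le_mul hzU hzU (by positivity) (by positivity)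
      _ = _ := by ring
  have hs := sLo_spec hz0 hz2U terms 0 ((n - d) * unit / (n + d)) 0
    (by simpa using hzU) (by simp [artSum])
  simp only [zero_add, mul_zero] at hs
  have h' := (artSum_bounds hz0 hz1 terms).1
  rw [hl] at h'
  rw [halfLogLo, div_le_iff₀ unit_pos]
  have := mul_le_mul_of_nonneg_right h' unit_pos.le
  linarith

lemma reduce_spec {a b : ℕ} (ha : 0 < a) (hb : 0 < b) :
    0 < (reduce a b).1 ∧ 0 < (reduce a b).2.1 ∧
      log ((a : ℝ) / b) = log (((reduce a b).1 : ℝ) / (reduce a b).2.1)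
        + (reduce a b).2.2.1 * log 2 - (reduce a b).2.2.2 * log 2 := by
  have key : ∀ i j : ℕ, 0 < a * 2 ^ j ∧ 0 < b * 2 ^ i ∧
      log ((a : ℝ) / b) = log (((a * 2 ^ j : ℕ) : ℝ) / ((b * 2 ^ i : ℕ) : ℝ))
        + i * log 2 - j * log 2 := by
    intro i j
    have hap : (0 : ℝ) < a := by exact_mod_cast ha
    have hbp : (0 : ℝ) < b := by exact_mod_cast hb
    refine ⟨by positivity, by positivity, ?_⟩
    push_cast
    rw [log_div hap.ne' hbp.ne', log_div (by positivity) (by positivity),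
      log_mul hap.ne' (by positivity), log_mul hbp.ne' (by positivity), log_pow, log_pow]
    ring
  unfold reduce
  simp only
  split_ifs <;> exact key _ _

lemma rat_eq_div {q : ℚ} (hq : 0 < q) :
    0 < q.num.toNat ∧ (q : ℝ) = (q.num.toNat : ℝ) / (q.den : ℝ) := by
  have h : 0 < q.num := Rat.num_pos.2 hq
  refine ⟨by omega, ?_⟩
  have e : ((q.num.toNat : ℤ) : ℝ) = (q.num : ℝ) := by rw [Int.toNat_of_nonneg h.le]
  rw [show ((q.num.toNat : ℝ)) = (q.num : ℝ) by exact_mod_cast e]
  exact Rat.cast_def q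

lemma log_two_le {t : ℕ} (h : halfLogUp 2 1 = some t) : log 2 ≤ 2 * (t : ℝ) / unit := by
  simpa using halfLogUp_spec h

lemma le_log_two : 2 * (halfLogLo 2 1 : ℝ) / unit ≤ log 2 := by
  simpa using halfLogLo_spec (n := 2) one_pos one_le_two

theorem log_le_logUB {q : ℚ} (hq : 0 < q) : log (q : ℝ) ≤ (logUB q : ℝ) := by
  have hqR : (0 : ℝ) < q := by exact_mod_cast hq
  have hfb : log (q : ℝ) ≤ ((q - 1 : ℚ) : ℝ) := by
    push_cast; exact log_le_sub_one_of_pos hqR
  unfold logUB
  obtain ⟨hn, he⟩ := rat_eq_div hq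
  obtain ⟨-, -, hl⟩ := reduce_spec hn q.den_pos
  simp only
  split
  · rename_i s t hs ht
    rw [he, hl]
    push_cast
    have h1 := halfLogUp_spec hs
    have h2 := mul_le_mul_of_nonneg_left (log_two_le ht)
      ((reduce q.num.toNat q.den).2.2.1.cast_nonneg (α := ℝ))
    have h3 := mul_le_mul_of_nonneg_left le_log_two
      ((reduce q.num.toNat q.den).2.2.2.cast_nonneg (α := ℝ))
    rw [sub_div, add_div]
    simp only [mul_div_right_comm] at *
    linarith
  · exact hfb

theorem logLB_le_log {q : ℚ} (hq : 0 < q) : (logLB q : ℝ) ≤ log (q : ℝ) := by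
  have hqR : (0 : ℝ) < q := by exact_mod_cast hq
  have hfb : ((1 - 1 / q : ℚ) : ℝ) ≤ log (q : ℝ) := by
    push_cast; rw [one_div]; exact one_sub_inv_le_log_of_pos hqR
  unfold logLB
  obtain ⟨hn, he⟩ := rat_eq_div hq
  obtain ⟨-, -, hl⟩ := reduce_spec hn q.den_pos
  simp only
  split
  · rename_i t ht
    split_ifs with hc
    · rw [he, hl]
      push_cast
      have h1 := halfLogLo_spec hc.2 hc.1
      have h2 := mul_le_mul_of_nonneg_left le_log_two
        ((reduce q.num.toNat q.den).2.2.1.cast_nonneg (α := ℝ))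
      have h3 := mul_le_mul_of_nonneg_left (log_two_le ht)
        ((reduce q.num.toNat q.den).2.2.2.cast_nonneg (α := ℝ))
      rw [sub_div, add_div]
      simp only [mul_div_right_comm] at *
      linarith
    · exact hfb
  · exact hfb

end Vale.Agent.P322.Check
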