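import Vale.Agent.P322.Check.Band

/-!
# Courtade–Kumar: corner tests for the saturation step with the children's saturation terms

After the reduction to a centred state `(d, H)` the margin is concave, so that on a trapezoid
`d1 ≤ d ≤ d2`, `rlo * d ≤ H ≤ rhi * d` four corners decide.
-/

namespace Vale.Agent.P322.Check

open Real Set

/-- A piece: right end, certificate, child tangent, hints. -/
structure PLeaf where
  /-- right end -/
  d2 : ℚ
  /-- `exp (2 b)` of the certificate -/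
  B : ℚ
  /-- the child tangent -/
  T : ℚ
  /-- hints -/
  E : List ℚ

/-- The lower bound of the margin of the centred state. -/
noncomputable def pmargin (k : Cert) (T : ℚ) (d H : ℝ) : ℝ :=
  (k.lam : ℝ) * d - (k.mu : ℝ) * H + (alphaLB T : ℝ) * uChild d - (rateUB T : ℝ) * H - Phi2 H

/-- The rational test at a corner. -/
def pcornerOK (k : Cert) (T d H E : ℚ) : Bool :=
  decide (0 ≤ d) && decide (d < 1) && decide (0 < H) && phi2OK H E &&
    decide (0 ≤ k.lam * d - k.mu * H + alphaLB T * (1 - 7 / 8 * d ^ 2 - d ^ 4 / 8)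
      - rateUB T * H - phi2UB H E)

/-- A good point. -/
structure PGood (k : Cert) (T : ℚ) (d H : ℝ) : Prop where
  /-- nonnegativity -/
  hd0 : 0 ≤ d
  /-- below one -/
  hd1 : d < 1
  /-- entropy -/
  hH : 0 < H
  /-- margin -/
  hF : 0 ≤ pmargin k T d H

theorem pcornerOK_good {k : Cert} {T d H E : ℚ} (h : pcornerOK k T d H E = true) :
    PGood k T (d : ℝ) (H : ℝ) := by
  simp only [pcornerOK, Bool.and_eq_true, decide_eq_true_eq] at h
  obtain ⟨⟨⟨⟨h1, h2⟩, h3⟩, h4⟩, h5⟩ := h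
  refine ⟨by exact_mod_cast h1, by exact_mod_cast h2, by exact_mod_cast h3, ?_⟩
  have c := Phi2_le_phi2UB h4
  have h5' := (Rat.cast_le (K := ℝ)).2 h5
  push_cast at h5'
  unfold pmargin uChild
  linarith

lemma uChild_concave {a b x y : ℝ} (ha : 0 ≤ a) (hb : 0 ≤ b) (hab : a + b = 1) :
    a * uChild x + b * uChild y ≤ uChild (a * x + b * y) := by
  obtain rfl : b = 1 - a := by linarith
  unfold uChild
  nlinarith [mul_nonneg (mul_nonneg ha hb) (sq_nonneg (x - y)),
    mul_nonneg (mul_nonneg ha hb) (sq_nonneg (x ^ 2 - y ^ 2)),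
    mul_nonneg (mul_nonneg ha hb) (mul_nonneg (sq_nonneg (x - y))
      (add_nonneg (add_nonneg (mul_nonneg ha (sq_nonneg x)) (mul_nonneg hb (sq_nonneg y)))
        (sq_nonneg (a * x + (1 - a) * y))))]

theorem PGood.combine {k : Cert} {T : ℚ} (hT : 0 ≤ alphaLB T) {d0 H0 d1 H1 a b : ℝ}
    (h0 : PGood k T d0 H0) (h1 : PGood k T d1 H1) (ha : 0 ≤ a) (hb : 0 ≤ b) (hab : a + b = 1) :
    PGood k T (a * d0 + b * d1) (a * H0 + b * H1) := by
  have hH : 0 < a * H0 + b * H1 := convex_Ioi (0 : ℝ) h0.hH h1.hH ha hb hab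
  refine ⟨convex_Ici (0 : ℝ) h0.hd0 h1.hd0 ha hb hab, convex_Iio (1 : ℝ) h0.hd1 h1.hd1 ha hb hab,
    hH, ?_⟩
  have c1 := mul_le_mul_of_nonneg_left (uChild_concave (x := d0) (y := d1) ha hb hab)
    (show (0 : ℝ) ≤ (alphaLB T : ℝ) by exact_mod_cast hT)
  have c2 := convexOn_Phi2.2 h0.hH h1.hH ha hb hab
  simp only [smul_eq_mul] at c2
  have g0 := mul_nonneg ha h0.hF
  have g1 := mul_nonneg hb h1.hF
  unfold pmargin at g0 g1 ⊢
  linarith

/-- Test of a piece. -/
def pleafOK (rlo rhi d1 : ℚ) (f : PLeaf) : Bool :=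
  match mkCert 1 f.B with
  | some k =>
      decide (k.nu = 0) && alphaOK f.T && decide (eUB f.T ≤ 1 / 4) && decide (0 ≤ alphaLB f.T) &&
      decide (d1 < f.d2) &&
      pcornerOK k f.T d1 (rlo * d1) (f.E.getD 0 1) && pcornerOK k f.T d1 (rhi * d1) (f.E.getD 1 1) &&
      pcornerOK k f.T f.d2 (rlo * f.d2) (f.E.getD 2 1) &&
      pcornerOK k f.T f.d2 (rhi * f.d2) (f.E.getD 3 1)
  | none => false

/-- Test of consecutive pieces from `d1` to beyond `dP`. -/
def pbandOK (rlo rhi dP : ℚ) : ℚ → List PLeaf → Bool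
  | d1, [] => decide (dP < d1)
  | d1, s :: rest => pleafOK rlo rhi d1 s && pbandOK rlo rhi dP s.d2 rest

theorem pleafOK_step {rlo rhi d1 : ℚ} {f : PLeaf} (h : pleafOK rlo rhi d1 f = true)
    {m d H K : ℝ} (hm0 : 0 ≤ m) (hm1 : m < 1) (h1 : (d1 : ℝ) * satWeight m ≤ d)
    (h2 : d ≤ (f.d2 : ℝ) * satWeight m) (hlo : (rlo : ℝ) * d ≤ H) (hhi : H ≤ (rhi : ℝ) * d)
    (hK : Edge m d H K) :
    persp2 (satWeight m) H
      ≤ K + persp2 ((satWeight (m + d) + satWeight (m - d)) / 2) H := by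
  unfold pleafOK at h
  split at h
  case h_2 => exact absurd h (by simp)
  rename_i k hk
  simp only [Bool.and_eq_true, decide_eq_true_eq] at h
  obtain ⟨⟨⟨⟨⟨⟨⟨⟨hnu, hT⟩, hT4⟩, hT0⟩, h12⟩, c1⟩, c2⟩, c3⟩, c4⟩ := h
  have g1 := pcornerOK_good c1
  have g2 := pcornerOK_good c2
  have g3 := pcornerOK_good c3
  have g4 := pcornerOK_good c4
  push_cast at g1 g2 g3 g4
  have hw := satWeight_pos (show m ∈ Ioo (-1 : ℝ) 1 from ⟨by linarith, hm1⟩)
  set w := satWeight m with hwdef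
  obtain ⟨a, b, ha, hb, hab, he⟩ := exists_weights (z := d / w)
    (x := (d1 : ℝ)) (y := (f.d2 : ℝ)) ((le_div_iff₀ hw).2 h1) ((div_le_iff₀ hw).2 h2)
  have gl := g1.combine hT0 g3 ha hb hab
  have gh := g2.combine hT0 g4 ha hb hab
  rw [mul_left_comm a, mul_left_comm b, ← mul_add, he] at gl
  rw [mul_left_comm a, mul_left_comm b, ← mul_add, he] at gh
  obtain ⟨a', b', ha', hb', hab', he'⟩ := exists_weights (z := H / w)
    (x := (rlo : ℝ) * (d / w)) (y := (rhi : ℝ) * (d / w))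
    (by rw [mul_div_assoc']; gcongr) (by rw [mul_div_assoc']; gcongr)
  have g := gl.combine hT0 gh ha' hb' hab'
  rw [he', ← add_mul, hab', one_mul] at g
  have hd : 0 ≤ d := by
    have := g.hd0; rwa [le_div_iff₀ hw, zero_mul] at this
  have hH : 0 < H := by
    have := g.hH; rwa [lt_div_iff₀ hw, zero_mul] at this
  refine persp2_transfer ⟨by linarith, hm1⟩ hd ?_ hH ?_
  · have := g.hd1; rwa [div_lt_one hw] at this
  have hcert := mkCert_sound hk hK hd hH.le hm1.le
  rw [hnu, Rat.cast_zero, zero_mul, add_zero] at hcert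
  have hcert' : (k.lam : ℝ) * (d / w) - (k.mu : ℝ) * (H / w) ≤ K / w := by
    rw [mul_div_assoc', mul_div_assoc', ← sub_div]; gcongr
  simp only [alphaOK, Bool.and_eq_true, decide_eq_true_eq] at hT
  have hα := (alpha_bounds (E := f.T) (by simp [alphaOK, hT])).1
  have hr := le_rateUB hT.1.1 hT.1.2
  have he4 : ent (tanh (pt f.T)) ≤ 1 / 4 := by
    refine (eLB_le hT.1.1.le).2.trans ?_
    have := (Rat.cast_le (K := ℝ)).2 hT4; push_cast at this; exact this
  have hu : 0 < uChild (d / w) := uChild_pos g.hd0 g.hd1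
  have ht := tangent_le_persp2 ⟨ent_pt_pos f.T, he4⟩ hu g.hH
  have e1 := mul_le_mul_of_nonneg_left hα hu.le
  have e2 := mul_le_mul_of_nonneg_right hr g.hH.le
  have hF := g.hF
  unfold pmargin at hF
  linarith

theorem pbandOK_step {rlo rhi dP : ℚ} :
    ∀ (L : List PLeaf) (d1 : ℚ), pbandOK rlo rhi dP d1 L = true → ∀ {m d H K : ℝ}, 0 ≤ m → m < 1 →
      (d1 : ℝ) * satWeight m ≤ d → d ≤ (dP : ℝ) * satWeight m → (rlo : ℝ) * d ≤ H →
      H ≤ (rhi : ℝ) * d → Edge m d H K →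
      persp2 (satWeight m) H
        ≤ K + persp2 ((satWeight (m + d) + satWeight (m - d)) / 2) H := by
  intro L
  induction L with
  | nil =>
    intro d1 h m d H K hm0 hm1 h1 h2 _ _ _
    simp only [pbandOK, decide_eq_true_eq] at h
    have hw := satWeight_pos (show m ∈ Ioo (-1 : ℝ) 1 from ⟨by linarith, hm1⟩)
    have h' : (dP : ℝ) < (d1 : ℝ) := by exact_mod_cast h
    exact absurd (h1.trans h2) (not_le.2 (mul_lt_mul_of_pos_right h' hw))
  | cons s rest ih =>
    intro d1 h m d H K hm0 hm1 h1 h2 hlo hhi hK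
    simp only [pbandOK, Bool.and_eq_true] at h
    rcases le_total d ((s.d2 : ℝ) * satWeight m) with hle | hge
    · exact pleafOK_step h.1 hm0 hm1 h1 hle hlo hhi hK
    · exact ih s.d2 h.2 hm0 hm1 hge h2 hlo hhi hK

end Vale.Agent.P322.Check
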